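import Vale.Agent.P146.H605S.OutN
import Vale.Agent.P146.H320.MomL
import Vale.Agent.P146.H122.QF

set_option linter.all false

/-!
# P146: the order of the fluctuations up to powers of `log n`, from the entropy

`KLog β b₀ C g`: `n y ^ 6 / (log n) ^ C ≤ K(y) ≤ g(n) n y ^ 6` for
`(log n) ^ C n ^ (-1/6) ≤ y ≤ n ^ (-b₀)`.
-/

open MeasureTheory ProbabilityTheory Filter Topology Set

namespace Vale.Agent.P146.H605S

open Vale.Agent.P146 Vale.Agent.P146.H605 Vale.Agent.P146.H260.Dev Vale.Agent.P146.H260.V13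
open Vale.Agent.P146.H260.V14

/-- Two-sided bounds of the entropy, up to a power of the logarithm below. -/
def KLog (β b₀ C : ℝ) (g : ℕ → ℝ) : Prop := ∀ᶠ n : ℕ in atTop, ∀ y : ℝ,
  (Real.log n) ^ C * (n : ℝ) ^ (-(1 / 6) : ℝ) ≤ y → y ≤ (n : ℝ) ^ (-b₀) →
    n * y ^ 6 / (Real.log n) ^ C ≤ H9.KV n β y 0 ∧ H9.KV n β y 0 ≤ g n * (n * y ^ 6)

/-! ### elementary -/

lemma log_ge (M : ℝ) : ∀ᶠ n : ℕ in atTop, M ≤ Real.log n :=
  (Real.tendsto_log_atTop.comp tendsto_natCast_atTop_atTop).eventually_ge_atTop M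

/-- powers of the logarithm are small -/
lemma logpow_le (a : ℝ) {e : ℝ} (he : 0 < e) {K : ℝ} (hK : 0 < K) :
    ∀ᶠ n : ℕ in atTop, K * (Real.log n) ^ a ≤ (n : ℝ) ^ e := by
  have h := (isLittleO_log_rpow_rpow_atTop a he).bound (show (0 : ℝ) < 1 / K by positivity)
  have h' := (tendsto_natCast_atTop_atTop (R := ℝ)).eventually h
  filter_upwards [h', log_ge 1, eventually_ge_atTop 1] with n h1 h2 h3
  have hn0 : (0 : ℝ) < n := by exact_mod_cast h3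
  rw [Real.norm_eq_abs, Real.norm_eq_abs,
    abs_of_nonneg (Real.rpow_nonneg (by linarith) a), abs_of_nonneg (by positivity)] at h1
  calc K * (Real.log n) ^ a ≤ K * (1 / K * (n : ℝ) ^ e) := by gcongr
    _ = (n : ℝ) ^ e := by field_simp

/-- a constant is absorbed by one power of the logarithm -/
lemma absorb {L K a b : ℝ} (hL : 1 ≤ L) (hK : K ≤ L) (hab : a + 1 ≤ b) : K * L ^ a ≤ L ^ b := by
  have hL0 : 0 < L := by linarith
  calc K * L ^ a ≤ L * L ^ a := by gcongr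
    _ = L ^ (a + 1) := by rw [Real.rpow_add_one hL0.ne', mul_comm]
    _ ≤ L ^ b := Real.rpow_le_rpow_of_exponent_le hL hab

lemma absorbP {L K D C : ℝ} (k : ℕ) (hL : 1 ≤ L) (hK : K ≤ L) (h : k * D + 1 ≤ C) :
    K * (L ^ D) ^ k ≤ L ^ C := by
  rw [← Real.rpow_natCast, ← Real.rpow_mul (by linarith)]
  exact absorb hL hK (by linarith)

/-! ### the exponential moments -/

theorem bd_log {β : ℝ} (hβ : 1 < β) {b₀ C₀ : ℝ} (hb : 0 < b₀) (hb1 : b₀ < 1 / 15) {g : ℕ → ℝ}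
    (hK : KLog β b₀ C₀ g) : ∃ Cm c : ℝ, 0 < Cm ∧ 0 < c ∧ ∀ᶠ n : ℕ in atTop,
      Bd β n ((Real.log n) ^ (|C₀| + 1) * (n : ℝ) ^ (-(1 / 6) : ℝ)) ((Real.log n) ^ (|C₀| + 1))⁻¹
        (max (g n) Cm) ∧
      Bd β n ((n : ℝ) ^ (-b₀)) c (max (g n) Cm) := by
  obtain ⟨c, C, hc, hC, hmid⟩ := mid hβ hb hb1
  obtain ⟨D, hD⟩ : ∃ D, D = |C₀| + 1 := ⟨_, rfl⟩
  have hD1 : 1 ≤ D := by rw [hD]; linarith [abs_nonneg C₀]
  have hDC : C₀ + 1 ≤ D := by rw [hD]; linarith [le_abs_self C₀]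
  rw [← hD]
  refine ⟨C, c, hC, hc, ?_⟩
  filter_upwards [hK, hmid, log_ge 64, log_ge (1 / c), logpow_le D
    (show (0 : ℝ) < 1 / 6 by norm_num) one_pos, eventually_ge_atTop 1] with n g1 g2 g3 g4 g5 g6
  have hn1 : (1 : ℝ) ≤ n := by exact_mod_cast g6
  have hn0 : (0 : ℝ) < n := by linarith
  obtain ⟨G, hG⟩ : ∃ G, G = max (g n) C := ⟨_, rfl⟩
  have hG1 : C ≤ G := by rw [hG]; exact le_max_right _ _
  have hG2 : g n ≤ G := by rw [hG]; exact le_max_left _ _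
  rw [← hG]
  obtain ⟨L, hL⟩ : ∃ L, L = Real.log n := ⟨_, rfl⟩
  rw [← hL] at g1 g3 g4 g5 ⊢
  have hL1 : 1 ≤ L := by linarith
  have hL0 : 0 < L := by linarith
  obtain ⟨r, hr⟩ : ∃ r, r = (n : ℝ) ^ (-(1 / 6) : ℝ) := ⟨_, rfl⟩
  have hr0 : 0 < r := by rw [hr]; positivity
  rw [← hr] at g1 ⊢
  have hLD : 0 < L ^ D := by positivity
  have hLC : 0 < L ^ C₀ := by positivity
  have k1 : 64 * L ^ C₀ ≤ L ^ D := absorb hL1 g3 hDC
  have hy1 : L ^ D * r ≤ 1 := by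
    rw [hr, Real.rpow_neg hn0.le, ← div_eq_mul_inv, div_le_one (by positivity)]
    linarith
  have hb1' : (n : ℝ) ^ (-b₀) ≤ 1 := Real.rpow_le_one_of_one_le_of_nonpos hn1 (by linarith)
  have hlc : (L ^ D)⁻¹ ≤ c := by
    rw [inv_le_comm₀ hLD hc, ← one_div]
    refine g4.trans ?_
    calc L = L ^ (1 : ℝ) := (Real.rpow_one _).symm
      _ ≤ L ^ D := Real.rpow_le_rpow_of_exponent_le hL1 hD1
  have hlC : (L ^ D)⁻¹ * 64 ≤ 1 / L ^ C₀ := by
    rw [le_div_iff₀ hLC, mul_assoc, inv_mul_le_iff₀ hLD, mul_one]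
    exact k1
  have hGC : ∀ t : ℝ, 0 ≤ t → C * t ≤ G * t := fun t ht => mul_le_mul_of_nonneg_right hG1 ht
  have hGg : ∀ t : ℝ, 0 ≤ t → g n * t ≤ G * t := fun t ht => mul_le_mul_of_nonneg_right hG2 ht
  refine ⟨⟨g6, by positivity, hy1, by positivity, fun x hx hx1 => ?_, fun x hx hx1 => ?_⟩,
    ⟨g6, by positivity, hb1', hc, fun x hx hx1 => ?_, fun x hx hx1 => ?_⟩⟩
  · have hx0 : 0 < x := lt_of_lt_of_le (by positivity) hx
    rcases le_total x ((n : ℝ) ^ (-b₀)) with h1 | h1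
    · have h2 : L ^ C₀ * r ≤ x / 2 := by
        have : 64 * (L ^ C₀ * r) ≤ L ^ D * r := by
          have := mul_le_mul_of_nonneg_right k1 hr0.le
          linarith
        have h0 : 0 < L ^ C₀ * r := by positivity
        linarith
      have h3 := (g1 (x / 2) h2 (by linarith)).1
      have h4 := KV_le_cum (β := β) (n := n) (y := x / 2) (by positivity)
      rw [show 2 * (x / 2) = x by ring] at h4
      refine le_trans ?_ (h3.trans h4)
      have e : (n : ℝ) * (x / 2) ^ 6 / L ^ C₀ = (1 / L ^ C₀) * (n * x ^ 6) / 64 := by ring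
      rw [e]
      have h5 := mul_le_mul_of_nonneg_right hlC (by positivity : 0 ≤ n * x ^ 6)
      linarith
    · refine le_trans ?_ (g2 x h1 hx1).1
      have h5 := mul_le_mul_of_nonneg_right hlc (by positivity : 0 ≤ n * x ^ 6)
      linarith
  · have hx0 : 0 < x := lt_of_lt_of_le (by positivity) hx
    rcases le_total x ((n : ℝ) ^ (-b₀)) with h1 | h1
    · have h2 : L ^ C₀ * r ≤ x := by
        have h3 : 64 * (L ^ C₀ * r) ≤ L ^ D * r := by
          have := mul_le_mul_of_nonneg_right k1 hr0.le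
          linarith
        have h0 : 0 < L ^ C₀ * r := by positivity
        linarith
      exact (cum_le_KV g6 hx0).trans ((g1 x h2 h1).2.trans (hGg _ (by positivity)))
    · refine (g2 x h1 hx1).2.trans ?_
      have h5 := hGC (n * x ^ 6) (by positivity)
      linarith
  · have h2 := (g2 x hx hx1).1
    linarith
  · have hx0 : 0 < x := lt_of_lt_of_le (by positivity) hx
    refine (g2 x hx hx1).2.trans ?_
    have h5 := hGC (n * x ^ 6) (by positivity)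
    linarith

/-- **The conclusions**, for any constant `g(n)` of the upper bound up to a power of `log n`. -/
theorem out_log {β : ℝ} (hβ : 1 < β) {b₀ C₀ : ℝ} (hb : 0 < b₀) (hb1 : b₀ < 1 / 15) {g : ℕ → ℝ}
    (hg : ∀ᶠ n : ℕ in atTop, g n ≤ (Real.log n) ^ C₀) (hK : KLog β b₀ C₀ g) :
    ∃ C δ Cm : ℝ, 0 < C ∧ 0 < δ ∧ 0 < Cm ∧ ∀ᶠ n : ℕ in atTop,
      Out β ((Real.log n) ^ C) δ (max (g n) Cm / (2 * max (g n) Cm) ^ (6 / 5 : ℝ))
        (max (g n) Cm) n := by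
  obtain ⟨Cm, c, hCm, hc, hbd⟩ := bd_log hβ hb hb1 hK
  obtain ⟨D, hD⟩ : ∃ D, D = |C₀| + 1 := ⟨_, rfl⟩
  have hD1 : 1 ≤ D := by rw [hD]; linarith [abs_nonneg C₀]
  have hDC : C₀ + 1 ≤ D := by rw [hD]; linarith [le_abs_self C₀]
  rw [← hD] at hbd
  obtain ⟨C, hC⟩ : ∃ C, C = 6 * D + 3 := ⟨_, rfl⟩
  obtain ⟨K, hKK⟩ : ∃ K, K = 2 + 64 * (2 / c) ^ (6 / 5 : ℝ) := ⟨_, rfl⟩
  refine ⟨C, min (c / 64) (2 * Cm), Cm, by rw [hC]; linarith,
    lt_min (by positivity) (by positivity), hCm, ?_⟩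
  have hb6 : 0 < 1 - 6 * b₀ := by linarith
  filter_upwards [hbd, hg, log_ge 6013440, log_ge Cm, log_ge K, log_ge (2592 * β ^ 2),
    logpow_le D (show (0 : ℝ) < 1 / 6 by norm_num) (show (0 : ℝ) < 375840 by norm_num),
    logpow_le (2 * D) (show (0 : ℝ) < 1 / 3 by norm_num)
      (show (0 : ℝ) < 2592 * β ^ 2 by positivity),
    logpow_le 0 hb6 (show (0 : ℝ) < 2 / c by positivity),
    logpow_le D (show (0 : ℝ) < 5 * b₀ by linarith) (show (0 : ℝ) < 32 * c by positivity),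
    eventually_ge_atTop 1] with n gb gg g3 g4 g5 g6 g7 g8 g9 g10 g11
  have hn1 : (1 : ℝ) ≤ n := by exact_mod_cast g11
  have hn0 : (0 : ℝ) < n := by linarith
  obtain ⟨G, hG⟩ : ∃ G, G = max (g n) Cm := ⟨_, rfl⟩
  have hG1 : Cm ≤ G := by rw [hG]; exact le_max_right _ _
  rw [← hG] at gb ⊢
  have hG0 : 0 < G := by linarith
  obtain ⟨L, hL⟩ : ∃ L, L = Real.log n := ⟨_, rfl⟩
  rw [← hL] at gb gg g3 g4 g5 g6 g7 g8 g9 g10 ⊢
  have hL1 : 1 ≤ L := by linarith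
  have hL0 : 0 < L := by linarith
  have hP1 : L ≤ L ^ D := by
    calc L = L ^ (1 : ℝ) := (Real.rpow_one _).symm
      _ ≤ L ^ D := Real.rpow_le_rpow_of_exponent_le hL1 hD1
  have hGP : G ≤ L ^ D := by
    rw [hG]
    refine max_le (gg.trans (Real.rpow_le_rpow_of_exponent_le hL1 (by linarith))) (g4.trans hP1)
  have e1 : ∀ k : ℕ, ((L ^ D) ^ k) = L ^ (D * k) := fun k => by
    rw [← Real.rpow_natCast, ← Real.rpow_mul hL0.le]
  have eP : L ^ D = (L ^ D) ^ 1 := (pow_one _).symm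
  refine out_of gb.1 gb.2 ⟨hβ.le, by linarith, hGP, ?_, ?_, ?_, ?_, ?_, ?_, ?_, ?_, ?_, ?_, ?_, ?_,
    ?_, ?_⟩
  · rw [eP]
    exact absorbP 1 hL1 g3 (by rw [hC]; push_cast; linarith)
  · exact absorbP 2 hL1 (by linarith) (by rw [hC]; push_cast; linarith)
  · exact absorbP 3 hL1 (by linarith) (by rw [hC]; push_cast; linarith)
  · exact absorbP 5 hL1 (by linarith) (by rw [hC]; push_cast; linarith)
  · exact absorbP 6 hL1 (by linarith) (by rw [hC]; push_cast; linarith)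
  · rw [← hKK, eP]
    exact absorbP 1 hL1 g5 (by rw [hC]; push_cast; linarith)
  · rw [← hL]
    calc 2592 * β ^ 2 * L * (L ^ D) ^ 2 ≤ L * L * (L ^ D) ^ 2 := by gcongr
      _ = L * (L ^ D) ^ 2 * L := by ring
      _ ≤ L ^ (2 * D + 1) * L := by
          gcongr
          exact absorbP 2 hL1 le_rfl (by push_cast; linarith)
      _ = L ^ (2 * D + 1 + 1) := by rw [Real.rpow_add_one hL0.ne' (2 * D + 1)]
      _ ≤ L ^ C := Real.rpow_le_rpow_of_exponent_le hL1 (by rw [hC]; linarith)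
  · rw [Real.rpow_neg hn0.le, ← mul_assoc, ← div_eq_mul_inv, div_le_one (by positivity)]
    exact g7
  · rw [e1 2]
    push_cast
    rw [mul_comm D 2]
    exact g8
  · have e2 : (n : ℝ) * ((n : ℝ) ^ (-b₀)) ^ 6 = (n : ℝ) ^ (1 - 6 * b₀) := by
      rw [← Real.rpow_natCast, ← Real.rpow_mul hn0.le,
        show (1 - 6 * b₀ : ℝ) = 1 + (-b₀ * ((6 : ℕ) : ℝ)) by push_cast; ring,
        Real.rpow_add hn0, Real.rpow_one]
    rw [Real.rpow_zero, mul_one, div_le_iff₀ hc] at g9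
    rw [e2]
    linarith
  · have e2 : ((n : ℝ) ^ (-b₀)) ^ 5 = ((n : ℝ) ^ (5 * b₀))⁻¹ := by
      rw [← Real.rpow_natCast, ← Real.rpow_mul hn0.le, ← Real.rpow_neg hn0.le]
      congr 1
      push_cast
      ring
    rw [e2]
    have h0 : 0 < (n : ℝ) ^ (5 * b₀) := by positivity
    have e3 : 32 * c * ((n : ℝ) ^ (5 * b₀))⁻¹ * L ^ D = 32 * c * L ^ D / (n : ℝ) ^ (5 * b₀) := by
      rw [div_eq_mul_inv]
      ring
    rw [e3, div_le_one h0]
    exact g10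
  · have := min_le_left (c / 64) (2 * Cm)
    linarith
  · have := min_le_right (c / 64) (2 * Cm)
    linarith
  · rw [div_mul_cancel₀]
    positivity

/-- The conclusions are monotone in the parameters. -/
lemma Out.mono {β Z δ c g Z' c' g' : ℝ} {n : ℕ} (h1 : Out β Z δ c g n) (hn : 1 ≤ n) (hZ : 0 < Z)
    (k1 : Z ≤ Z') (hc : c' ≤ c) (hg : g ≤ g') : Out β Z' δ c' g' n := by
  have hn0 : (0 : ℝ) < n := by exact_mod_cast hn
  have hZ' : 0 < Z' := hZ.trans_le k1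
  refine ⟨⟨?_, ?_⟩, fun x g1 g2 => ?_, fun s g1 g2 => ?_, fun u hu => ?_, fun y u hu => ?_,
    ⟨?_, ?_⟩, ⟨?_, fun t ht0 ht1 => ?_⟩⟩
  · refine le_trans ?_ h1.var.1
    exact div_le_div_of_nonneg_left (by positivity) hZ k1
  · refine h1.var.2.trans ?_
    gcongr
  · have g3 : (n : ℝ) ^ (-(1 / 6) : ℝ) * Z ≤ x := le_trans (by gcongr) g1
    have hx0 : 0 < x := lt_of_lt_of_le (by positivity) g3
    refine ⟨le_trans ?_ (h1.mom x g3 g2).1, (h1.mom x g3 g2).2.trans (by gcongr)⟩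
    exact div_le_div_of_nonneg_left (by positivity) hZ k1
  · have g3 : (n : ℝ) ^ (-(5 / 6) : ℝ) * Z ≤ s := le_trans (by gcongr) g1
    have hs0 : 0 < s := lt_of_lt_of_le (by positivity) g3
    refine ⟨le_trans (Real.exp_le_exp.2 (neg_le_neg ?_)) (h1.right s g3 g2).1,
      (h1.right s g3 g2).2.trans (Real.exp_le_exp.2 (neg_le_neg ?_))⟩
    · gcongr
    · gcongr
  · refine (h1.left u hu).trans (Real.exp_le_exp.2 (neg_le_neg ?_))
    exact div_le_div_of_nonneg_left (by positivity) (by positivity) (by gcongr)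
  · refine (h1.small y u hu).trans ?_
    gcongr
  · refine h1.sides.1.trans (measureReal_mono fun g hg => ?_)
    simp only [mem_setOf_eq] at hg ⊢
    have h3 : (n : ℝ) ^ (1 / 6 : ℝ) / Z' ≤ (n : ℝ) ^ (1 / 6 : ℝ) / Z :=
      div_le_div_of_nonneg_left (by positivity) hZ k1
    linarith
  · refine h1.sides.2.trans (measureReal_mono fun g hg => ?_)
    simp only [mem_setOf_eq] at hg ⊢
    have h3 : (n : ℝ) ^ (1 / 6 : ℝ) / Z' ≤ (n : ℝ) ^ (1 / 6 : ℝ) / Z :=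
      div_le_div_of_nonneg_left (by positivity) hZ k1
    linarith
  · obtain ⟨t, ht0, ht1, ht⟩ := h1.chaos.1
    refine ⟨t, ht0, ht1, le_trans ?_ ht⟩
    exact div_le_div_of_nonneg_left (by positivity) hZ k1
  · refine (h1.chaos.2 t ht0 ht1).trans ?_
    gcongr

/-- `KLog` is monotone in the power. -/
lemma KLog.mono {β b₀ C₀ C₁ : ℝ} {g g' : ℕ → ℝ} (hK : KLog β b₀ C₀ g) (h : C₀ ≤ C₁)
    (hg : ∀ᶠ n : ℕ in atTop, g n ≤ g' n) : KLog β b₀ C₁ g' := by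
  filter_upwards [hK, log_ge 1, hg] with n h1 h2 hgn y h3 h4
  have h5 : (Real.log n) ^ C₀ ≤ (Real.log n) ^ C₁ := Real.rpow_le_rpow_of_exponent_le h2 h
  have h6 : 0 < (Real.log n) ^ C₀ := Real.rpow_pos_of_pos (by linarith) _
  have h7 : (Real.log n) ^ C₀ * (n : ℝ) ^ (-(1 / 6) : ℝ) ≤ y :=
    (mul_le_mul_of_nonneg_right h5 (by positivity)).trans h3
  have hy : 0 ≤ y := by
    refine le_trans ?_ h7
    positivity
  refine ⟨le_trans ?_ (h1 y h7 h4).1, (h1 y h7 h4).2.trans (by gcongr)⟩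
  exact div_le_div_of_nonneg_left (by positivity) h6 h5

/-- **The constant form**: `n y ^ 6 / (log n) ^ C₀ ≤ K ≤ C₀ n y ^ 6`. -/
theorem out_const {β : ℝ} (hβ : 1 < β) {b₀ C₀ : ℝ} (hb : 0 < b₀) (hb1 : b₀ < 1 / 15)
    (hK : KLog β b₀ C₀ fun _ => C₀) : ∃ C δ c : ℝ, 0 < C ∧ 0 < δ ∧ 0 < c ∧
      ∀ᶠ n : ℕ in atTop, Out β ((Real.log n) ^ C) δ c C n := by
  have hK' : KLog β b₀ (max C₀ 1) fun _ => C₀ :=
    hK.mono (le_max_left _ _) (Eventually.of_forall fun _ => le_rfl)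
  obtain ⟨C, δ, Cm, hC, hδ, hCm, h⟩ := out_log hβ hb hb1 (C₀ := max C₀ 1) (by
    filter_upwards [log_ge (max C₀ 1)] with n hn
    have h1 : 1 ≤ Real.log n := (le_max_right _ _).trans hn
    calc C₀ ≤ Real.log n := (le_max_left _ _).trans hn
      _ = (Real.log n) ^ (1 : ℝ) := (Real.rpow_one _).symm
      _ ≤ (Real.log n) ^ (max C₀ 1) := Real.rpow_le_rpow_of_exponent_le h1 (le_max_right _ _)) hK'
  obtain ⟨G, hG⟩ : ∃ G, G = max C₀ Cm := ⟨_, rfl⟩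
  have hG0 : 0 < G := by rw [hG]; exact lt_max_of_lt_right hCm
  refine ⟨max C G, δ, G / (2 * G) ^ (6 / 5 : ℝ), lt_max_of_lt_left hC, hδ, by positivity, ?_⟩
  filter_upwards [h, log_ge 1, eventually_ge_atTop 1] with n h1 h2 hn
  rw [← hG] at h1
  exact h1.mono hn (Real.rpow_pos_of_pos (by linarith) _)
    (Real.rpow_le_rpow_of_exponent_le h2 (le_max_left _ _)) le_rfl (le_max_right _ _)

/-- **The form with powers of `log n` on both sides**:
`n y ^ 6 / (log n) ^ C₀ ≤ K ≤ (log n) ^ C₀ n y ^ 6`. -/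
theorem out_poly {β : ℝ} (hβ : 1 < β) {b₀ C₀ : ℝ} (hb : 0 < b₀) (hb1 : b₀ < 1 / 15)
    (hK : KLog β b₀ C₀ fun n => (Real.log n) ^ C₀) : ∃ C δ : ℝ, 0 < C ∧ 0 < δ ∧
      ∀ᶠ n : ℕ in atTop,
        Out β ((Real.log n) ^ C) δ ((Real.log n) ^ (-C)) ((Real.log n) ^ C) n := by
  obtain ⟨C, δ, Cm, hC, hδ, hCm, h⟩ := out_log hβ hb hb1 (Eventually.of_forall fun _ => le_rfl) hK
  obtain ⟨D, hD⟩ : ∃ D, D = max C (|C₀| + 1) := ⟨_, rfl⟩
  have hDC : C ≤ D := by rw [hD]; exact le_max_left _ _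
  have hD0 : |C₀| + 1 ≤ D := by rw [hD]; exact le_max_right _ _
  have hD1 : 1 ≤ D := by linarith [abs_nonneg C₀]
  refine ⟨D + 1, δ, by linarith, hδ, ?_⟩
  filter_upwards [h, log_ge (max 4 Cm), eventually_ge_atTop 1] with n h1 h2 hn
  obtain ⟨L, hL⟩ : ∃ L, L = Real.log n := ⟨_, rfl⟩
  rw [← hL] at h1 h2 ⊢
  have hL4 : 4 ≤ L := (le_max_left _ _).trans h2
  have hLC : Cm ≤ L := (le_max_right _ _).trans h2
  have hL0 : 0 < L := by linarith
  obtain ⟨G, hG⟩ : ∃ G, G = max (L ^ C₀) Cm := ⟨_, rfl⟩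
  have hG0 : 0 < G := by rw [hG]; exact lt_max_of_lt_right hCm
  have hGD : G ≤ L ^ D := by
    rw [hG]
    refine max_le (Real.rpow_le_rpow_of_exponent_le (by linarith) ?_) ?_
    · linarith [le_abs_self C₀]
    · calc Cm ≤ L := hLC
        _ = L ^ (1 : ℝ) := (Real.rpow_one _).symm
        _ ≤ L ^ D := Real.rpow_le_rpow_of_exponent_le (by linarith) hD1
  rw [← hG] at h1
  have hLD : 0 < L ^ D := by positivity
  have hLD1 : 1 ≤ L ^ D := Real.one_le_rpow (by linarith) (by linarith)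
  refine h1.mono hn (Real.rpow_pos_of_pos hL0 _)
    (Real.rpow_le_rpow_of_exponent_le (by linarith) (by linarith)) ?_
    (hGD.trans (Real.rpow_le_rpow_of_exponent_le (by linarith) (by linarith)))
  have e1 : (2 * G) ^ (6 / 5 : ℝ) = G * (2 ^ (6 / 5 : ℝ) * G ^ (1 / 5 : ℝ)) := by
    rw [Real.mul_rpow (by norm_num) hG0.le, show (6 / 5 : ℝ) = 1 + 1 / 5 by norm_num,
      Real.rpow_add hG0, Real.rpow_one]
    ring
  have h3 : (2 : ℝ) ^ (6 / 5 : ℝ) ≤ 4 := by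
    calc (2 : ℝ) ^ (6 / 5 : ℝ) ≤ 2 ^ (2 : ℝ) :=
          Real.rpow_le_rpow_of_exponent_le (by norm_num) (by norm_num)
      _ = 4 := by norm_num
  have h4 : G ^ (1 / 5 : ℝ) ≤ L ^ D := by
    calc G ^ (1 / 5 : ℝ) ≤ (L ^ D) ^ (1 / 5 : ℝ) := Real.rpow_le_rpow hG0.le hGD (by norm_num)
      _ ≤ (L ^ D) ^ (1 : ℝ) := Real.rpow_le_rpow_of_exponent_le hLD1 (by norm_num)
      _ = L ^ D := Real.rpow_one _
  have h5 : 0 < (2 : ℝ) ^ (6 / 5 : ℝ) * G ^ (1 / 5 : ℝ) := by positivity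
  rw [e1, div_mul_eq_div_div, div_self hG0.ne', Real.rpow_neg hL0.le, ← one_div]
  refine one_div_le_one_div_of_le h5 ?_
  calc (2 : ℝ) ^ (6 / 5 : ℝ) * G ^ (1 / 5 : ℝ) ≤ L * L ^ D := by
        gcongr
        linarith
    _ = L ^ (D + 1) := by rw [Real.rpow_add_one hL0.ne', mul_comm]

/-! ### from the filter of the pairs `(n, q)` -/

/-- the unit `q` at which `n ^ q` is a power of `log n` -/
theorem at_log {P : ℕ → ℝ → Prop} (h : S3.EV P) : ∃ D : ℝ, 0 < D ∧ ∀ᶠ n : ℕ in atTop,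
    ∃ q : ℝ, 0 < q ∧ P n q ∧ ∀ c : ℝ, 0 ≤ c → (n : ℝ) ^ (c * q) ≤ (Real.log n) ^ (c * D) := by
  obtain ⟨C, hC, h1⟩ := S3.ev_iff.1 h
  refine ⟨2 * C, by positivity, ?_⟩
  have hL : Tendsto (fun n : ℕ => Real.log (n : ℝ)) atTop atTop :=
    Real.tendsto_log_atTop.comp tendsto_natCast_atTop_atTop
  have h3 := (Real.isLittleO_log_id_atTop.comp_tendsto hL).bound
    (show 0 < 1 / (2 * C ^ 2) by positivity)
  filter_upwards [h3, hL.eventually_ge_atTop (2 * C ^ 2), hL.eventually_ge_atTop 3,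
    eventually_ge_atTop 1] with n g1 g2 g3 g4
  have hn0 : (0 : ℝ) < n := by exact_mod_cast g4
  obtain ⟨L, hL⟩ : ∃ L, L = Real.log n := ⟨_, rfl⟩
  have hL0 : 0 < L := by rw [hL]; linarith
  have hLL : 1 ≤ Real.log L := by
    rw [Real.le_log_iff_exp_le hL0, hL]
    linarith [Real.exp_one_lt_d9]
  simp only [Function.comp, id, Real.norm_eq_abs] at g1
  rw [← hL] at g1 g2 g3 ⊢
  rw [abs_of_nonneg hL0.le, abs_of_nonneg (by linarith)] at g1
  refine ⟨C * (1 + Real.log L) / L, by positivity, h1 n _ ?_ ?_, fun c hc => ?_⟩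
  · rw [← hL, abs_of_nonneg (by linarith), div_mul_cancel₀ _ hL0.ne']
  · rw [div_mul_eq_mul_div, div_le_one hL0]
    have g5 : C ^ 2 * Real.log L ≤ L / 2 := by
      calc C ^ 2 * Real.log L ≤ C ^ 2 * (1 / (2 * C ^ 2) * L) := by gcongr
        _ = L / 2 := by field_simp
    nlinarith
  · rw [Real.rpow_def_of_pos hn0, Real.rpow_def_of_pos hL0, Real.exp_le_exp, ← hL]
    have e : L * (c * (C * (1 + Real.log L) / L)) = c * C * (1 + Real.log L) := by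
      field_simp
    rw [e]
    have h5 : c * C * (1 + Real.log L) ≤ c * C * (2 * Real.log L) := by
      gcongr
      linarith
    linarith

/-- **From the ported bounds to `KLog`**, powers of `log n` on both sides. -/
theorem klog_of_ev {β b₀ c₁ c₂ c₃ : ℝ} (h1 : 0 ≤ c₁) (h2 : 0 ≤ c₂) (h3 : 0 ≤ c₃)
    (h : S3.EV fun n q => ∀ y : ℝ, (n : ℝ) ^ (-(1 / 6) + c₁ * q) ≤ y → y ≤ (n : ℝ) ^ (-b₀) →
      (n : ℝ) ^ (-(c₂ * q)) * (n * y ^ 6) ≤ H9.KV n β y 0 ∧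
      H9.KV n β y 0 ≤ (n : ℝ) ^ (c₃ * q) * (n * y ^ 6)) :
    ∃ C₀ : ℝ, 0 ≤ C₀ ∧ KLog β b₀ C₀ fun n => (Real.log n) ^ C₀ := by
  obtain ⟨D, hD, hD'⟩ := at_log h
  refine ⟨(c₁ + c₂ + c₃) * D, by positivity, ?_⟩
  filter_upwards [hD', log_ge 1, eventually_ge_atTop 1] with n g1 g2 g3 y g4 g5
  obtain ⟨q, hq, g6, g7⟩ := g1
  have hn0 : (0 : ℝ) < n := by exact_mod_cast g3
  obtain ⟨L, hL⟩ : ∃ L, L = Real.log n := ⟨_, rfl⟩
  rw [← hL] at g2 g4 g7 ⊢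
  have hL0 : 0 < L := by linarith
  have hle : ∀ c : ℝ, 0 ≤ c → c ≤ c₁ + c₂ + c₃ → (n : ℝ) ^ (c * q) ≤ L ^ ((c₁ + c₂ + c₃) * D) :=
    fun c h0 h1 => (g7 c h0).trans (Real.rpow_le_rpow_of_exponent_le g2 (by gcongr))
  have k1 : (n : ℝ) ^ (-(1 / 6) + c₁ * q) ≤ y := by
    refine le_trans ?_ g4
    rw [Real.rpow_add hn0, mul_comm]
    exact mul_le_mul_of_nonneg_right (hle c₁ h1 (by linarith)) (by positivity)
  have hy0 : 0 < y := lt_of_lt_of_le (by positivity) k1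
  obtain ⟨g8, g9⟩ := g6 y k1 g5
  constructor
  · refine le_trans ?_ g8
    rw [Real.rpow_neg hn0.le, inv_mul_eq_div]
    exact div_le_div_of_nonneg_left (by positivity) (by positivity) (hle c₂ h2 (by linarith))
  · refine g9.trans ?_
    exact mul_le_mul_of_nonneg_right (hle c₃ h3 (by linarith)) (by positivity)

/-- **From the ported bounds to `KLog`**, a constant in the upper bound. -/
theorem klog_of_evC {β b₀ c₁ c₂ G : ℝ} (h1 : 0 ≤ c₁) (h2 : 0 ≤ c₂)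
    (h : S3.EV fun n q => ∀ y : ℝ, (n : ℝ) ^ (-(1 / 6) + c₁ * q) ≤ y → y ≤ (n : ℝ) ^ (-b₀) →
      (n : ℝ) ^ (-(c₂ * q)) * (n * y ^ 6) ≤ H9.KV n β y 0 ∧
      H9.KV n β y 0 ≤ G * (n * y ^ 6)) :
    ∃ C₀ : ℝ, KLog β b₀ C₀ fun _ => C₀ := by
  obtain ⟨D, hD, hD'⟩ := at_log h
  refine ⟨max ((c₁ + c₂) * D) G, ?_⟩
  filter_upwards [hD', log_ge 1, eventually_ge_atTop 1] with n g1 g2 g3 y g4 g5
  obtain ⟨q, hq, g6, g7⟩ := g1
  have hn0 : (0 : ℝ) < n := by exact_mod_cast g3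
  obtain ⟨L, hL⟩ : ∃ L, L = Real.log n := ⟨_, rfl⟩
  rw [← hL] at g2 g4 g7 ⊢
  have hL0 : 0 < L := by linarith
  have hle : ∀ c : ℝ, 0 ≤ c → c ≤ c₁ + c₂ → (n : ℝ) ^ (c * q) ≤ L ^ (max ((c₁ + c₂) * D) G) :=
    fun c h0 h1 => (g7 c h0).trans (Real.rpow_le_rpow_of_exponent_le g2
      ((mul_le_mul_of_nonneg_right h1 hD.le).trans (le_max_left _ _)))
  have k1 : (n : ℝ) ^ (-(1 / 6) + c₁ * q) ≤ y := by
    refine le_trans ?_ g4
    rw [Real.rpow_add hn0, mul_comm]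
    exact mul_le_mul_of_nonneg_right (hle c₁ h1 (by linarith)) (by positivity)
  have hy0 : 0 < y := lt_of_lt_of_le (by positivity) k1
  obtain ⟨g8, g9⟩ := g6 y k1 g5
  constructor
  · refine le_trans ?_ g8
    rw [Real.rpow_neg hn0.le, inv_mul_eq_div]
    exact div_le_div_of_nonneg_left (by positivity) (by positivity) (hle c₂ h2 (by linarith))
  · refine g9.trans ?_
    exact mul_le_mul_of_nonneg_right (le_max_right _ _) (by positivity)

/-! ### all moments -/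

/-- **All absolute moments**, from the variance line of `Out`. -/
theorem moments {β C : ℝ} (hC : 0 < C) {δ : ℝ} {c g : ℕ → ℝ} (h : ∀ᶠ n : ℕ in atTop,
    Out β ((Real.log n) ^ C) δ (c n) (g n) n) : ∀ p : ℝ, 0 < p → ∀ᶠ n : ℕ in atTop,
      (∀ y : ℝ, (n : ℝ) ^ (p / 6) * Real.log n ^ (-((C + 1) * p)) ≤
        ∫ g, |freeEnergy n β g - y| ^ p ∂(disorder n)) ∧
      ∫ g, |freeEnergy n β g - ∫ h, freeEnergy n β h ∂(disorder n)| ^ p ∂(disorder n) ≤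
        (n : ℝ) ^ (p / 6) * Real.log n ^ ((C + 1) * p) := by
  refine (H320.MomP.orderL hC.le ?_).1
  filter_upwards [h, log_ge 1] with n h1 h2
  refine ⟨?_, h1.var.2⟩
  rw [Real.rpow_neg (by linarith), ← div_eq_mul_inv]
  exact h1.var.1

end Vale.Agent.P146.H605S
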