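import Vale.Agent.P146.H605S.EndL

set_option linter.all false

/-!
# P146: the constant in the exponential moments and in the right tail

If `K(y) ≤ G n y ^ 6` for `n ^ (-1/6 + e) ≤ y ≤ n ^ (-b₀)`, with one constant `G` for all `e > 0`,
then `log E exp (x (F - E F)) ≤ C n x ^ 6` for `n ^ (-1/6 + e) ≤ x ≤ 1` and
`P (F ≥ E F + n s) ≤ exp (- c n s ^ (6/5))` for `n ^ (-5/6 + e) ≤ s ≤ δ`, with constants which do
not depend on `e`.
-/

open MeasureTheory ProbabilityTheory Filter Topology Set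

namespace Vale.Agent.P146.H605S

open Vale.Agent.P146 Vale.Agent.P146.H605 Vale.Agent.P146.H260.Dev Vale.Agent.P146.H260.V13
open Vale.Agent.P146.H260.V14

/-- The right tail from above, at one `n`, from the upper bound of the exponential moments. -/
lemma right_up' {β : ℝ} {n : ℕ} {y₀ G : ℝ} (hy : 0 < y₀) (hG : 0 < G)
    (hup : ∀ x : ℝ, y₀ ≤ x → x ≤ 1 → cum β n x ≤ G * (n * x ^ 6)) {s : ℝ}
    (h1 : 2 * G * y₀ ^ 5 ≤ s) (h2 : s ≤ 2 * G) :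
    (disorder n).real {g | ∫ h, freeEnergy n β h ∂(disorder n) + n * s ≤ freeEnergy n β g} ≤
      Real.exp (-(G / (2 * G) ^ (6 / 5 : ℝ) * (n * s ^ (6 / 5 : ℝ)))) := by
  obtain ⟨w, hw⟩ : ∃ w, w = s / (2 * G) := ⟨_, rfl⟩
  have hw5 : y₀ ^ 5 ≤ w := by
    rw [hw, le_div_iff₀ (by positivity)]
    linarith
  have hw0 : 0 < w := lt_of_lt_of_le (by positivity) hw5
  have hw1 : w ≤ 1 := by
    rw [hw, div_le_one (by positivity)]
    exact h2
  have hs : s = 2 * G * w := by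
    rw [hw]
    field_simp
  obtain ⟨x, hx⟩ : ∃ x, x = w ^ (1 / 5 : ℝ) := ⟨_, rfl⟩
  have hx0 : 0 < x := by rw [hx]; exact Real.rpow_pos_of_pos hw0 _
  have hx5 : x ^ 5 = w := by
    rw [hx, ← Real.rpow_natCast, ← Real.rpow_mul hw0.le]
    norm_num
  have hx6 : x ^ 6 = w ^ (6 / 5 : ℝ) := by
    rw [hx, ← Real.rpow_natCast, ← Real.rpow_mul hw0.le]
    norm_num
  have hyx : y₀ ≤ x := by
    by_contra hc
    push Not at hc
    have := pow_lt_pow_left₀ hc hx0.le (by norm_num : 5 ≠ 0)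
    rw [hx5] at this
    linarith
  have hx1 : x ≤ 1 := by rw [hx]; exact Real.rpow_le_one hw0.le hw1 (by norm_num)
  have g5 : ∫ g, Real.exp (x * (freeEnergy n β g - ∫ h, freeEnergy n β h ∂(disorder n)))
      ∂(disorder n) ≤ Real.exp (G * (n * x ^ 6)) := by
    rw [← exp_cum]
    exact Real.exp_le_exp.2 (hup x hyx hx1)
  refine (chernoff_up hx0.le g5).trans (Real.exp_le_exp.2 ?_)
  have e3 : s ^ (6 / 5 : ℝ) = (2 * G) ^ (6 / 5 : ℝ) * x ^ 6 := by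
    rw [hs, Real.mul_rpow (by positivity) hw0.le, hx6]
  have e4 : G / (2 * G) ^ (6 / 5 : ℝ) * (n * s ^ (6 / 5 : ℝ)) = G * (n * x ^ 6) := by
    rw [e3]
    have : (2 * G) ^ (6 / 5 : ℝ) ≠ 0 := by positivity
    field_simp
  rw [e4, hs, ← hx5]
  have e : G * (n * x ^ 6) - x * (n * (2 * G * x ^ 5)) = -(G * (n * x ^ 6)) := by ring
  rw [e]

/-- **The constants**: one constant in the exponential moments and in the right tail, up to the
critical window. -/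
theorem cgf_const {β : ℝ} (hβ : 1 < β) {b₀ G : ℝ} (hb : 0 < b₀) (hb1 : b₀ < 1 / 15)
    (hU : ∀ e : ℝ, 0 < e → ∀ᶠ n : ℕ in atTop, ∀ y : ℝ, (n : ℝ) ^ (-(1 / 6) + e) ≤ y →
      y ≤ (n : ℝ) ^ (-b₀) → H9.KV n β y 0 ≤ G * (n * y ^ 6)) :
    ∃ C c δ : ℝ, 0 < C ∧ 0 < c ∧ 0 < δ ∧ ∀ e : ℝ, 0 < e → ∀ᶠ n : ℕ in atTop,
      (∀ x : ℝ, (n : ℝ) ^ (-(1 / 6) + e) ≤ x → x ≤ 1 →
        Real.log (∫ g, Real.exp (x * (freeEnergy n β g -
          ∫ h, freeEnergy n β h ∂(disorder n))) ∂(disorder n)) ≤ C * (n * x ^ 6)) ∧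
      (∀ s : ℝ, (n : ℝ) ^ (-(5 / 6) + e) ≤ s → s ≤ δ → (disorder n).real {g |
        ∫ h, freeEnergy n β h ∂(disorder n) + n * s ≤ freeEnergy n β g} ≤
          Real.exp (-(c * (n * s ^ (6 / 5 : ℝ))))) := by
  obtain ⟨c, Cm, hc, hCm, hmid⟩ := mid hβ hb hb1
  obtain ⟨C, hC⟩ : ∃ C, C = max G Cm := ⟨_, rfl⟩
  have hC0 : 0 < C := by rw [hC]; exact lt_max_of_lt_right hCm
  have hG1 : G ≤ C := by rw [hC]; exact le_max_left _ _
  have hG2 : Cm ≤ C := by rw [hC]; exact le_max_right _ _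
  have key : ∀ e : ℝ, 0 < e → ∀ᶠ n : ℕ in atTop, ∀ x : ℝ, (n : ℝ) ^ (-(1 / 6) + e) ≤ x → x ≤ 1 →
      cum β n x ≤ C * (n * x ^ 6) := by
    intro e he
    filter_upwards [hU e he, hmid, eventually_ge_atTop 1] with n g1 g2 g3 x hx hx1
    have hn0 : (0 : ℝ) < n := by exact_mod_cast g3
    have hx0 : 0 < x := lt_of_lt_of_le (by positivity) hx
    rcases le_total x ((n : ℝ) ^ (-b₀)) with h1 | h1
    · exact (cum_le_KV g3 hx0).trans ((g1 x hx h1).trans (by gcongr))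
    · refine (g2 x h1 hx1).2.trans ?_
      have : Cm * (n * x ^ 6) ≤ C * (n * x ^ 6) := by gcongr
      linarith
  refine ⟨C, C / (2 * C) ^ (6 / 5 : ℝ), 2 * C, hC0, by positivity, by positivity,
    fun e he => ?_⟩
  have he' : 0 < e / 10 := by positivity
  filter_upwards [key e he, key (e / 10) he', H320.MomP.pow_ev (show 0 < e / 2 by positivity)
    (2 * C), eventually_ge_atTop 1] with n g1 g2 g3 g4
  refine ⟨g1, fun s h1 h2 => ?_⟩
  have hn0 : (0 : ℝ) < n := by exact_mod_cast g4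
  refine right_up' (y₀ := (n : ℝ) ^ (-(1 / 6) + e / 10)) (by positivity) hC0 g2 ?_ h2
  refine le_trans ?_ h1
  rw [← Real.rpow_natCast, ← Real.rpow_mul hn0.le]
  calc 2 * C * (n : ℝ) ^ ((-(1 / 6) + e / 10) * ((5 : ℕ) : ℝ)) ≤
        (n : ℝ) ^ (e / 2) * (n : ℝ) ^ ((-(1 / 6) + e / 10) * ((5 : ℕ) : ℝ)) := by gcongr
    _ = (n : ℝ) ^ (-(5 / 6) + e) := by
        rw [← Real.rpow_add hn0]
        congr 1
        push_cast
        ring

/-- The hypothesis of `cgf_const` from the filter of the pairs `(n, q)`. -/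
theorem kup_of_ev {β b₀ c₁ G : ℝ} (hc : 0 < c₁)
    (h : S3.EV fun n q => ∀ y : ℝ, (n : ℝ) ^ (-(1 / 6) + c₁ * q) ≤ y → y ≤ (n : ℝ) ^ (-b₀) →
      H9.KV n β y 0 ≤ G * (n * y ^ 6)) :
    ∀ e : ℝ, 0 < e → ∀ᶠ n : ℕ in atTop, ∀ y : ℝ, (n : ℝ) ^ (-(1 / 6) + e) ≤ y →
      y ≤ (n : ℝ) ^ (-b₀) → H9.KV n β y 0 ≤ G * (n * y ^ 6) := by
  intro e he
  obtain ⟨q1, hq1, h1⟩ := h.at
  obtain ⟨q, hq⟩ : ∃ q, q = min q1 (e / c₁) := ⟨_, rfl⟩
  have hq0 : 0 < q := by rw [hq]; exact lt_min hq1 (by positivity)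
  have hqe : c₁ * q ≤ e := by
    have : q ≤ e / c₁ := by rw [hq]; exact min_le_right _ _
    rw [le_div_iff₀ hc] at this
    linarith
  filter_upwards [h1 q hq0 (by rw [hq]; exact min_le_left _ _), eventually_ge_atTop 1]
    with n h2 h3 y h4 h5
  have hn1 : (1 : ℝ) ≤ n := by exact_mod_cast h3
  refine h2 y (le_trans ?_ h4) h5
  exact Real.rpow_le_rpow_of_exponent_le hn1 (by linarith)

end Vale.Agent.P146.H605S
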