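import Vale.Agent.P146.H605S.EndL
import Vale.Agent.P146.H178.End2

set_option linter.all false

/-!
# P146: from the response and the upper law, in the unit, to `KLog`
-/

open MeasureTheory ProbabilityTheory Filter Topology Set

namespace Vale.Agent.P146.H605S

open Vale.Agent.P146 Vale.Agent.P146.H605 Vale.Agent.P146.H260.Dev Vale.Agent.P146.H260.V13
open Vale.Agent.P146.H260.V14

/-- **The lower law at `2 y`**, at one `(n, q)`, from the response at `y`. -/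
theorem low_pt {β C N q y κ2 κ1 A : ℝ} (hβ : 0 < β) (hN : 1 ≤ N) (hq : 0 < q) (hC : 0 ≤ C)
    (hy0 : 0 < y) (hy : N ^ (-(1 / 6) + 1000 * q) ≤ y) (hy1 : y ≤ 1 / 4)
    (hr : N ^ (-(11 * q)) * y ^ 2 ≤ A - 1)
    (hc : y * N * (N ^ (-(24 * q)) * y ^ 3) / (4 * β) * (A - 1) ≤ κ2 / 2 - κ1 +
      C * (1 + Real.log N) + C * (N * (y * (N ^ (-(24 * q)) * y ^ 3)) ^ 2))
    (h1 : 0 ≤ κ1) (g1 : 16 * β * C * (1 + Real.log N) ≤ N ^ q)
    (g2 : 16 * β * C ≤ N ^ q) (g3 : 256 * β ≤ N ^ q) :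
    N ^ (-(36 * q)) * (N * (2 * y) ^ 6) ≤ κ2 := by
  have hN0 : 0 < N := by linarith
  obtain ⟨z, hz⟩ : ∃ z, z = N ^ q := ⟨_, rfl⟩
  have hz0 : 0 < z := by rw [hz]; positivity
  have hz1 : 1 ≤ z := by rw [hz]; exact Real.one_le_rpow hN hq.le
  have ez : ∀ k : ℕ, N ^ (-((k : ℝ) * q)) = (z ^ k)⁻¹ := fun k => by
    rw [hz, ← Real.rpow_natCast, ← Real.rpow_mul hN0.le, ← Real.rpow_neg hN0.le]
    congr 1
    ring
  have e11 : N ^ (-(11 * q)) = (z ^ 11)⁻¹ := by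
    have := ez 11
    push_cast at this
    exact this
  have e24 : N ^ (-(24 * q)) = (z ^ 24)⁻¹ := by
    have := ez 24
    push_cast at this
    exact this
  have e36 : N ^ (-(36 * q)) = (z ^ 36)⁻¹ := by
    have := ez 36
    push_cast at this
    exact this
  rw [← hz] at g1 g2 g3
  rw [e11] at hr
  rw [e24] at hc
  rw [e36]
  -- `N y ^ 6 ≥ z ^ 6000`
  have hy6 : z ^ 6000 ≤ N * y ^ 6 := by
    have h2 : (N ^ (-(1 / 6) + 1000 * q)) ^ 6 ≤ y ^ 6 := pow_le_pow_left₀ (by positivity) hy 6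
    have e : N * (N ^ (-(1 / 6) + 1000 * q)) ^ 6 = z ^ 6000 := by
      rw [hz, ← Real.rpow_natCast, ← Real.rpow_natCast, ← Real.rpow_mul hN0.le,
        ← Real.rpow_mul hN0.le]
      nth_rewrite 1 [← Real.rpow_one N]
      rw [← Real.rpow_add hN0]
      congr 1
      push_cast
      ring
    rw [← e]
    exact mul_le_mul_of_nonneg_left h2 hN0.le
  obtain ⟨M, hM⟩ : ∃ M, M = N * y ^ 6 := ⟨_, rfl⟩
  rw [← hM] at hy6
  have hM0 : 0 < M := by rw [hM]; positivity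
  have hMz : z ^ 36 ≤ M := (pow_le_pow_right₀ hz1 (by norm_num)).trans hy6
  -- the main term
  have a1 : y * N * ((z ^ 24)⁻¹ * y ^ 3) / (4 * β) * ((z ^ 11)⁻¹ * y ^ 2) ≤
      y * N * ((z ^ 24)⁻¹ * y ^ 3) / (4 * β) * (A - 1) :=
    mul_le_mul_of_nonneg_left hr (by positivity)
  have e1 : y * N * ((z ^ 24)⁻¹ * y ^ 3) / (4 * β) * ((z ^ 11)⁻¹ * y ^ 2) =
      z * (z ^ 36)⁻¹ * M / (4 * β) := by
    rw [hM]
    field_simp
  -- the logarithm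
  have a2 : C * (1 + Real.log N) ≤ z * (z ^ 36)⁻¹ * M / (16 * β) := by
    rw [le_div_iff₀ (by positivity)]
    have h3 : 1 ≤ (z ^ 36)⁻¹ * M := by
      rw [← div_eq_inv_mul, one_le_div (by positivity)]
      exact hMz
    calc C * (1 + Real.log N) * (16 * β) = 16 * β * C * (1 + Real.log N) := by ring
      _ ≤ z := g1
      _ = z * 1 := (mul_one z).symm
      _ ≤ z * ((z ^ 36)⁻¹ * M) := mul_le_mul_of_nonneg_left h3 hz0.le
      _ = _ := by ring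
  -- the quadratic term
  have a3 : C * (N * (y * ((z ^ 24)⁻¹ * y ^ 3)) ^ 2) ≤ z * (z ^ 36)⁻¹ * M / (16 * β) := by
    rw [le_div_iff₀ (by positivity)]
    have h3 : (z ^ 24)⁻¹ * (z ^ 24)⁻¹ ≤ (z ^ 36)⁻¹ := by
      rw [← mul_inv, ← pow_add]
      exact inv_anti₀ (by positivity) (pow_le_pow_right₀ hz1 (by norm_num))
    have h4 : y ^ 2 ≤ 1 := pow_le_one₀ hy0.le (by linarith)
    calc C * (N * (y * ((z ^ 24)⁻¹ * y ^ 3)) ^ 2) * (16 * β) =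
          16 * β * C * ((z ^ 24)⁻¹ * (z ^ 24)⁻¹) * M * y ^ 2 := by
            rw [hM]
            ring
      _ ≤ z * (z ^ 36)⁻¹ * M * 1 := by gcongr
      _ = _ := mul_one _
  rw [e1] at a1
  have h5 : z * (z ^ 36)⁻¹ * M / (4 * β) = 4 * (z * (z ^ 36)⁻¹ * M / (16 * β)) := by ring
  have h6 : z * (z ^ 36)⁻¹ * M / (4 * β) ≤ κ2 := by linarith
  refine le_trans ?_ h6
  rw [le_div_iff₀ (by positivity)]
  have h7 : 0 ≤ (z ^ 36)⁻¹ * M := by positivity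
  calc (z ^ 36)⁻¹ * (N * (2 * y) ^ 6) * (4 * β) = 256 * β * ((z ^ 36)⁻¹ * M) := by
        rw [hM]
        ring
    _ ≤ z * ((z ^ 36)⁻¹ * M) := mul_le_mul_of_nonneg_right g3 h7
    _ = _ := by ring

/-- **The passage.** -/
theorem ev_of_joint {β b₁ G : ℝ} (hβ : 1 < β) (hb₁ : 0 < b₁)
    (h : S3.EV fun n q => ∀ x : ℝ, (n : ℝ) ^ (-(1 / 6) + 1000 * q) ≤ x → x ≤ (n : ℝ) ^ (-b₁) →
      (n : ℝ) ^ (-(11 * q)) * x ^ 2 ≤ H877.At β n x ((n : ℝ) ^ (-(24 * q)) * x ^ 3) - 1 ∧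
      H9.KV n β x 0 ≤ G * (n * x ^ 6)) :
    S3.EV fun n q => ∀ y : ℝ, (n : ℝ) ^ (-(1 / 6) + 1001 * q) ≤ y → y ≤ (n : ℝ) ^ (-b₁) →
      (n : ℝ) ^ (-(36 * q)) * (n * y ^ 6) ≤ H9.KV n β y 0 ∧
      H9.KV n β y 0 ≤ G * (n * y ^ 6) := by
  obtain ⟨C, hC0, hC⟩ := H178.contig_sk hβ
  have hβ0 : 0 < β := by linarith
  have hsm : ∀ᶠ n : ℕ in atTop, (n : ℝ) ^ (-b₁) ≤ 1 / 4 :=
    ((tendsto_rpow_neg_atTop hb₁).comp
      (tendsto_natCast_atTop_atTop (R := ℝ))).eventually_le_const (by norm_num)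
  filter_upwards [h, S3.ev_logpow one_pos (16 * β * C), S3.ev_rpow one_pos (16 * β * C),
    S3.ev_rpow one_pos (256 * β), S3.ev_rpow one_pos 2, S3.ev_ge 1, S3.ev_q0, S3.ev_atTop hsm]
    with ⟨n, q⟩ g1 g2 g3 g4 g5 g6 hq g7
  dsimp only at g1 g2 g3 g4 g5 g6 hq g7 ⊢
  rw [one_mul] at g2 g3 g4 g5
  intro y hy hy1
  have hn1 : (1 : ℝ) ≤ n := by exact_mod_cast g6
  have hn0 : (0 : ℝ) < n := by linarith
  have e1 : (n : ℝ) ^ (-(1 / 6) + 1001 * q) = (n : ℝ) ^ (-(1 / 6) + 1000 * q) * (n : ℝ) ^ q := by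
    rw [← Real.rpow_add hn0]
    congr 1
    ring
  have hr0 : 0 < (n : ℝ) ^ (-(1 / 6) + 1000 * q) := by positivity
  have hy2 : (n : ℝ) ^ (-(1 / 6) + 1000 * q) ≤ y / 2 := by
    rw [e1] at hy
    nlinarith
  have hy0 : 0 < y / 2 := lt_of_lt_of_le hr0 hy2
  have hy3 : y / 2 ≤ (n : ℝ) ^ (-b₁) := by linarith
  have hy4 : y / 2 ≤ 1 / 4 := hy3.trans g7
  refine ⟨?_, (g1 y (hy2.trans (by linarith)) hy1).2⟩
  refine le_trans ?_ (cum_le_KV g6 (by linarith))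
  have hv1 : (n : ℝ) ^ (-(24 * q)) * (y / 2) ^ 3 ≤ 1 := by
    have h2 : (n : ℝ) ^ (-(24 * q)) ≤ 1 := Real.rpow_le_one_of_one_le_of_nonpos hn1 (by linarith)
    have h3 : (y / 2) ^ 3 ≤ 1 := pow_le_one₀ hy0.le (by linarith)
    calc (n : ℝ) ^ (-(24 * q)) * (y / 2) ^ 3 ≤ 1 * 1 := by gcongr
      _ = 1 := by norm_num
  have h5 := hC n g6 (y / 2) _ hy0 hy4 (show 0 < (n : ℝ) ^ (-(24 * q)) * (y / 2) ^ 3 by positivity)
    hv1
  have h6 := (g1 (y / 2) hy2 hy3).1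
  have h7 := low_pt (κ2 := H877.kap β n (2 * (y / 2))) (κ1 := H877.kap β n (y / 2)) hβ0 hn1 hq hC0
    hy0 hy2 hy4 h6 h5 (H877.kap_nonneg β n _) g2 g3 g4
  rw [show 2 * (y / 2) = y by ring] at h7
  exact h7

/-- **`KLog` from the joint flow.** -/
theorem klog_of_joint {β b₁ G : ℝ} (hβ : 1 < β) (hb₁ : 0 < b₁)
    (h : S3.EV fun n q => ∀ x : ℝ, (n : ℝ) ^ (-(1 / 6) + 1000 * q) ≤ x → x ≤ (n : ℝ) ^ (-b₁) →
      (n : ℝ) ^ (-(11 * q)) * x ^ 2 ≤ H877.At β n x ((n : ℝ) ^ (-(24 * q)) * x ^ 3) - 1 ∧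
      H9.KV n β x 0 ≤ G * (n * x ^ 6)) : ∃ C₀ : ℝ, KLog β b₁ C₀ fun _ => C₀ :=
  klog_of_evC (by norm_num) (by norm_num) (ev_of_joint hβ hb₁ h)

end Vale.Agent.P146.H605S
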