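import Vale.Agent.P146.H260.Dev4
import Vale.Agent.P146.H320.MomP
import Vale.Agent.P146.H9.Mod2

set_option linter.all false

/-!
# P146: the fluctuations at one `n`, from two-sided bounds of the exponential moments

`Bd β n y₀ ℓ G`: `ℓ n x ^ 6 ≤ log E exp (x (F - E F)) ≤ G n x ^ 6` for `y₀ ≤ x ≤ 1`. The variance,
both tails, the small balls, the sides and the chaos profile follow, at the same `n`.
-/

open MeasureTheory ProbabilityTheory Filter Topology Set

namespace Vale.Agent.P146.H605S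

open Vale.Agent.P146 Vale.Agent.P146.H605 Vale.Agent.P146.H260.Dev Vale.Agent.P146.H260.V13
open Vale.Agent.P146.H260.V14

variable {β : ℝ} {n : ℕ}

/-! ### the entropy and the exponential moments -/

lemma VX_eq {y : ℝ} : VX β n y = 2 * (H9.KV n β y 0 / y ^ 2) := by
  unfold VX VK
  rw [H9.KV_zero]

/-- The exponential moment is at most the entropy. -/
lemma cum_le_KV (hn : 1 ≤ n) {y : ℝ} (hy : 0 < y) : cum β n y ≤ H9.KV n β y 0 := by
  have h1 := mgf_both (β := β) hn hy (le_refl y)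
  rw [← exp_cum, Real.exp_le_exp, VX_eq] at h1
  refine h1.trans (le_of_eq ?_)
  field_simp

lemma cum_eq_kap (x : ℝ) : cum β n x = H877.kap β n x := rfl

/-- The entropy at `y` is at most the exponential moment at `2 y`. -/
lemma KV_le_cum {y : ℝ} (hy : 0 < y) : H9.KV n β y 0 ≤ cum β n (2 * y) := by
  have h1 := (H9.KV_zero_bd β n hy (show y ≤ 2 * y by linarith)).1
  rw [← cum_eq_kap, ← cum_eq_kap] at h1
  have h2 : 0 ≤ cum β n y / y := div_nonneg (cum_nonneg β n y) hy.le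
  have e : 1 / y - 1 / (2 * y) = 1 / (2 * y) := by
    field_simp
    norm_num
  rw [e] at h1
  have h3 : H9.KV n β y 0 * (1 / (2 * y)) ≤ cum β n (2 * y) * (1 / (2 * y)) := by
    have e2 : cum β n (2 * y) / (2 * y) = cum β n (2 * y) * (1 / (2 * y)) := by ring
    rw [← e2]
    linarith
  exact le_of_mul_le_mul_right h3 (by positivity)

/-- The variance from the entropy. -/
lemma var_le_KV {y : ℝ} (hy : 0 < y) :
    Var[freeEnergy n β; disorder n] ≤ 2 * H9.KV n β y 0 / y ^ 2 := by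
  have h := var_le_VX (β := β) (n := n) hy
  rw [VX_eq] at h
  refine h.trans (le_of_eq ?_)
  ring

/-- The variance from the exponential moment. -/
lemma var_le_cum {y : ℝ} (hy : 0 < y) :
    Var[freeEnergy n β; disorder n] ≤ 8 * cum β n y / y ^ 2 := by
  have h1 := var_le_KV (β := β) (n := n) (y := y / 2) (by positivity)
  have h2 := KV_le_cum (β := β) (n := n) (y := y / 2) (by positivity)
  rw [show 2 * (y / 2) = y by ring] at h2
  refine h1.trans ?_
  rw [div_le_div_iff₀ (by positivity) (by positivity)]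
  have h3 : 2 * H9.KV n β (y / 2) 0 * y ^ 2 ≤ 2 * cum β n y * y ^ 2 := by gcongr
  refine h3.trans (le_of_eq ?_)
  ring

/-- The standard deviation is not small if the exponential moment is not small. -/
lemma sd_low {x : ℝ} (hx : 0 < x) (h : 2 ≤ cum β n x) :
    1 / (18 * x) ≤ 1 + √Var[freeEnergy n β; disorder n] := by
  by_contra hc
  push Not at hc
  have hs : 0 ≤ √Var[freeEnergy n β; disorder n] := Real.sqrt_nonneg _
  have h1 : x * (18 * (1 + √Var[freeEnergy n β; disorder n])) ≤ 1 := by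
    have h2 := (lt_div_iff₀ (by positivity : 0 < 18 * x)).1 hc
    linarith
  have h2 := (H641.exp_moment n β hx.le (show x * (18 * H641.sd1 n β) ≤ 1 from h1)).2
  have h3 : Real.exp (cum β n x) ≤ 7 / 2 := by
    rw [exp_cum]
    exact h2
  have h4 : Real.exp 2 ≤ 7 / 2 := (Real.exp_le_exp.2 h).trans h3
  have h5 : (2 : ℝ) ^ 2 ≤ Real.exp 2 := by
    have h6 : (2 : ℝ) ≤ Real.exp 1 := by
      have := Real.add_one_le_exp (1 : ℝ)
      linarith
    calc (2 : ℝ) ^ 2 ≤ Real.exp 1 ^ 2 := pow_le_pow_left₀ (by norm_num) h6 2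
      _ = Real.exp 2 := by rw [← Real.exp_nat_mul]; norm_num
  linarith

/-- The left tail, for any bound of the variance. -/
lemma left_tail (hn : 1 ≤ n) {W u : ℝ} (hW0 : 0 < W) (hW : Var[freeEnergy n β; disorder n] ≤ W)
    (hu : 0 ≤ u) : (disorder n).real {g | freeEnergy n β g ≤
      ∫ h, freeEnergy n β h ∂(disorder n) - u} ≤ Real.exp (-(u ^ 2 / (2 * W))) := by
  have hx : 0 ≤ u / W := by positivity
  have h1 := R2.H453.Lo.sk_LB β hn zero_le_one le_rfl hx
  rw [crossCov_one n β hn, sub_self] at h1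
  have h2 := R2.H533.chernoff (n := n) (β := β) (x := u / W) (u := u)
    (fun y => int_exp_sk n β y) hx h1
  refine h2.trans (Real.exp_le_exp.2 ?_)
  have h3 : (u / W) ^ 2 / 2 * Var[freeEnergy n β; disorder n] ≤ (u / W) ^ 2 / 2 * W :=
    mul_le_mul_of_nonneg_left hW (by positivity)
  have e1 : (u / W) ^ 2 / 2 * W = u ^ 2 / (2 * W) := by
    field_simp
  have e2 : u / W * u = 2 * (u ^ 2 / (2 * W)) := by
    field_simp
  rw [e1] at h3
  rw [e2]
  linarith

/-! ### the two-sided bounds -/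

/-- Two-sided bounds of the exponential moments for `y₀ ≤ x ≤ 1`. -/
structure Bd (β : ℝ) (n : ℕ) (y₀ l G : ℝ) : Prop where
  n1 : 1 ≤ n
  y0 : 0 < y₀
  y1 : y₀ ≤ 1
  l0 : 0 < l
  lo : ∀ x : ℝ, y₀ ≤ x → x ≤ 1 → l * (n * x ^ 6) ≤ cum β n x
  up : ∀ x : ℝ, y₀ ≤ x → x ≤ 1 → cum β n x ≤ G * (n * x ^ 6)

variable {y₀ l G : ℝ}

lemma Bd.n0 (h : Bd β n y₀ l G) : (0 : ℝ) < n := by exact_mod_cast h.n1

lemma Bd.lG (h : Bd β n y₀ l G) : l ≤ G := by
  have h1 := (h.lo 1 h.y1 le_rfl).trans (h.up 1 h.y1 le_rfl)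
  have h2 : 0 < (n : ℝ) * 1 ^ 6 := by have := h.n0; positivity
  exact le_of_mul_le_mul_right h1 h2

lemma Bd.G0 (h : Bd β n y₀ l G) : 0 < G := h.l0.trans_le h.lG

lemma Bd.var_up (h : Bd β n y₀ l G) :
    Var[freeEnergy n β; disorder n] ≤ 8 * G * (n * y₀ ^ 4) := by
  have hy := h.y0
  refine (var_le_cum hy).trans ?_
  rw [div_le_iff₀ (by positivity)]
  have h1 := h.up y₀ le_rfl h.y1
  calc 8 * cum β n y₀ ≤ 8 * (G * (n * y₀ ^ 6)) := by linarith
    _ = 8 * G * (n * y₀ ^ 4) * y₀ ^ 2 := by ring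

lemma Bd.sd (h : Bd β n y₀ l G) (h2 : 2 ≤ l * (n * y₀ ^ 6)) :
    1 / (18 * y₀) ≤ 1 + √Var[freeEnergy n β; disorder n] :=
  sd_low h.y0 (h2.trans (h.lo y₀ le_rfl h.y1))

/-- The right tail from above. -/
lemma Bd.right_up (h : Bd β n y₀ l G) {s : ℝ} (h1 : 2 * G * y₀ ^ 5 ≤ s) (h2 : s ≤ 2 * G) :
    (disorder n).real {g | ∫ h, freeEnergy n β h ∂(disorder n) + n * s ≤ freeEnergy n β g} ≤
      Real.exp (-(G * (n * (s / (2 * G)) ^ (6 / 5 : ℝ)))) := by
  have hG := h.G0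
  have hy := h.y0
  have hn := h.n0
  obtain ⟨w, hw⟩ : ∃ w, w = s / (2 * G) := ⟨_, rfl⟩
  have hw5 : y₀ ^ 5 ≤ w := by
    rw [hw, le_div_iff₀ (by positivity)]
    linarith
  have hw0 : 0 < w := lt_of_lt_of_le (by positivity) hw5
  have hw1 : w ≤ 1 := by
    rw [hw, div_le_one (by positivity)]
    exact h2
  have hs : s = 2 * G * w := by
    rw [hw]
    field_simp
  obtain ⟨x, hx⟩ : ∃ x, x = w ^ (1 / 5 : ℝ) := ⟨_, rfl⟩
  have hx0 : 0 < x := by rw [hx]; exact Real.rpow_pos_of_pos hw0 _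
  have hx5 : x ^ 5 = w := by
    rw [hx, ← Real.rpow_natCast, ← Real.rpow_mul hw0.le]
    norm_num
  have hx6 : x ^ 6 = w ^ (6 / 5 : ℝ) := by
    rw [hx, ← Real.rpow_natCast, ← Real.rpow_mul hw0.le]
    norm_num
  have hyx : y₀ ≤ x := by
    by_contra hc
    push Not at hc
    have := pow_lt_pow_left₀ hc hx0.le (by norm_num : 5 ≠ 0)
    rw [hx5] at this
    linarith
  have hx1 : x ≤ 1 := by rw [hx]; exact Real.rpow_le_one hw0.le hw1 (by norm_num)
  have g5 : ∫ g, Real.exp (x * (freeEnergy n β g - ∫ h, freeEnergy n β h ∂(disorder n)))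
      ∂(disorder n) ≤ Real.exp (G * (n * x ^ 6)) := by
    rw [← exp_cum]
    exact Real.exp_le_exp.2 (h.up x hyx hx1)
  refine (chernoff_up hx0.le g5).trans (Real.exp_le_exp.2 ?_)
  rw [← hw, ← hx6, hs, ← hx5]
  have e : G * (n * x ^ 6) - x * (n * (2 * G * x ^ 5)) = -(G * (n * x ^ 6)) := by ring
  rw [e]

/-- The right tail from below. -/
lemma Bd.right_low (h : Bd β n y₀ l G) (hl : 2 ≤ l * (n * y₀ ^ 6)) {s : ℝ}
    (h1 : l * y₀ ^ 5 / 2 ≤ s) (h2 : 64 * s ≤ l) :
    1 / 4 * Real.exp (-(64 * G * (n * (2 * s / l) ^ (6 / 5 : ℝ)))) ≤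
    (disorder n).real {g | ∫ h, freeEnergy n β h ∂(disorder n) + n * s ≤ freeEnergy n β g} := by
  have hl0 := h.l0
  have hy := h.y0
  have hn := h.n0
  obtain ⟨w, hw⟩ : ∃ w, w = 2 * s / l := ⟨_, rfl⟩
  have hw5 : y₀ ^ 5 ≤ w := by
    rw [hw, le_div_iff₀ hl0]
    linarith
  have hw0 : 0 < w := lt_of_lt_of_le (by positivity) hw5
  have hw1 : 32 * w ≤ 1 := by
    rw [hw, ← mul_div_assoc, div_le_one hl0]
    linarith
  obtain ⟨x, hx0, hx5, hx6, hx2, hx⟩ := root5 hw0 hw1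
  have hyx : y₀ ≤ x := by
    by_contra hc
    push Not at hc
    have := pow_lt_pow_left₀ hc hx0.le (by norm_num : 5 ≠ 0)
    rw [hx5] at this
    linarith
  have q1 := h.lo x hyx (by linarith)
  have q2 := h.up (2 * x) (by linarith) hx2
  have hs : (n : ℝ) * s = l * n * x ^ 5 / 2 := by
    rw [hx5, hw]
    field_simp
  have q3 := low_gen (β := β) (n := n) (x := x) (L := l * n) (U := 64 * G * n) (s := s) hx0
    (by linarith [show l * n * x ^ 6 = l * (n * x ^ 6) by ring])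
    (by linarith [show 64 * G * n * x ^ 6 = G * (n * (2 * x) ^ 6) by ring]) hs
    (by
      have h3 : y₀ ^ 6 ≤ x ^ 6 := pow_le_pow_left₀ hy.le hyx 6
      have h4 : l * (n * y₀ ^ 6) ≤ l * (n * x ^ 6) := by gcongr
      linarith [show l * n * x ^ 6 = l * (n * x ^ 6) by ring])
  rw [← hw, ← hx6]
  rw [show 64 * G * (n * x ^ 6) = 64 * G * n * x ^ 6 by ring]
  exact q3

/-- The small balls. -/
lemma Bd.small (h : Bd β n y₀ l G) (hl : 2 ≤ l * (n * y₀ ^ 6)) (y : ℝ) {u : ℝ} (hu : 0 ≤ u) :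
    (disorder n).real {g | |freeEnergy n β g - y| ≤ u} ≤ 46980 * (1 + u) * y₀ := by
  have hy := h.y0
  have h1 := H655.anticoncentration n β y hu
  have h2 := h.sd hl
  have h3 : 0 < 1 / (18 * y₀) := by positivity
  refine h1.trans ?_
  calc 2610 * (u + 1) / (1 + √Var[freeEnergy n β; disorder n]) ≤
        2610 * (u + 1) / (1 / (18 * y₀)) := by gcongr
    _ = 46980 * (1 + u) * y₀ := by
        field_simp
        ring

/-- The chaos profile is at most the variance. -/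
lemma prof_up (hn : 1 ≤ n) {W t : ℝ} (hW : Var[freeEnergy n β; disorder n] ≤ W) (h0 : 0 ≤ t)
    (h1 : t < 1) : β ^ 2 / 2 * (n * (1 - t) * crossOverlap n β t) ≤ W + β ^ 2 / 2 := by
  have h2 := (var_ge_crossOverlap n β hn h0 h1.le).trans hW
  have h3 : 0 ≤ β ^ 2 / 2 * t := by positivity
  have e : (1 - t) * (β ^ 2 / 2) * (n * crossOverlap n β t - 1) =
      β ^ 2 / 2 * (n * (1 - t) * crossOverlap n β t) - β ^ 2 / 2 + β ^ 2 / 2 * t := by ring
  rw [e] at h2
  linarith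

/-- The chaos profile is at least the variance, up to a logarithm. -/
lemma prof_low (hn : 1 ≤ n) {A : ℝ} (hA : 0 ≤ A)
    (h : β ^ 2 / 2 * (A * Real.log n) + β ^ 2 / 2 < Var[freeEnergy n β; disorder n]) :
    ∃ t : ℝ, 0 ≤ t ∧ t < 1 ∧ A ≤ n * (1 - t) * crossOverlap n β t := by
  by_contra hc
  push Not at hc
  have h1 := var_le_of_prof n β hn (A := β ^ 2 / 2 * A) (fun a h0 h1 => by
    have h2 := hc a h0 h1
    have e : (1 - a) * (β ^ 2 / 2 * (n * crossOverlap n β a - 1)) =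
        β ^ 2 / 2 * (n * (1 - a) * crossOverlap n β a) - β ^ 2 / 2 * (1 - a) := by ring
    have h3 : β ^ 2 / 2 * (n * (1 - a) * crossOverlap n β a) ≤ β ^ 2 / 2 * A :=
      mul_le_mul_of_nonneg_left h2.le (by positivity)
    have h4 : 0 ≤ β ^ 2 / 2 * (1 - a) := mul_nonneg (by positivity) (by linarith)
    rw [e]
    linarith)
  have e : β ^ 2 / 2 * A * Real.log n = β ^ 2 / 2 * (A * Real.log n) := by ring
  rw [e] at h1
  linarith

end Vale.Agent.P146.H605S
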