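import Vale.Agent.P146.H605S.OutN
import Vale.Agent.P146.H762.OneSided

set_option linter.all false

/-!
# P146: asymmetry, large fluctuations and one-sided moments, at one `n`
-/

open MeasureTheory ProbabilityTheory Filter Topology Set

namespace Vale.Agent.P146.H605S

open Vale.Agent.P146 Vale.Agent.P146.H605 Vale.Agent.P146.H260.Dev Vale.Agent.P146.H260.V13
open Vale.Agent.P146.H260.V14

variable {β : ℝ} {n : ℕ} {Z δ c g : ℝ}

lemma Out.Z1 (h : Out β Z δ c g n) (hn : 1 ≤ n) (hZ : 0 < Z) : 1 ≤ Z := by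
  have hn0 : (0 : ℝ) < n := by exact_mod_cast hn
  by_contra hc
  push Not at hc
  have h1 := h.var.1.trans h.var.2
  have hN : 0 < (n : ℝ) ^ (1 / 3 : ℝ) := by positivity
  rw [div_le_iff₀ hZ] at h1
  have h2 : Z * Z < 1 := by nlinarith
  have h3 := mul_lt_mul_of_pos_left h2 hN
  linarith

/-- the standard deviation -/
lemma sd_both (h : Out β Z δ c g n) (hn : 1 ≤ n) (hZ : 0 < Z) :
    (n : ℝ) ^ (1 / 6 : ℝ) / Z ≤ √Var[freeEnergy n β; disorder n] ∧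
    √Var[freeEnergy n β; disorder n] ≤ (n : ℝ) ^ (1 / 6 : ℝ) * Z := by
  have hn0 : (0 : ℝ) < n := by exact_mod_cast hn
  have hZ1 := h.Z1 hn hZ
  have e : ((n : ℝ) ^ (1 / 6 : ℝ)) ^ 2 = (n : ℝ) ^ (1 / 3 : ℝ) := by
    rw [← Real.rpow_natCast, ← Real.rpow_mul hn0.le]
    norm_num
  have hN : 0 < (n : ℝ) ^ (1 / 3 : ℝ) := by positivity
  constructor
  · refine Real.le_sqrt_of_sq_le (le_trans ?_ h.var.1)
    rw [div_pow, e]
    exact div_le_div_of_nonneg_left hN.le hZ (by nlinarith)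
  · rw [Real.sqrt_le_left (by positivity)]
    refine h.var.2.trans ?_
    rw [mul_pow, e]
    exact mul_le_mul_of_nonneg_left (by nlinarith) hN.le

/-- **Asymmetry at one `n`.** -/
theorem asym_of (h : Out β Z δ c g n) (hn : 1 ≤ n) (hZ : 0 < Z) {Y u : ℝ} (hY : 16 * Z ^ 4 ≤ Y)
    (hu : Y ≤ u) (hu1 : u ≤ δ * (n : ℝ) ^ (5 / 6 : ℝ) / Y) :
    Real.exp (-(Y * u ^ (6 / 5 : ℝ))) ≤ (disorder n).real {g |
      ∫ h, freeEnergy n β h ∂(disorder n) + u * √Var[freeEnergy n β; disorder n] ≤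
        freeEnergy n β g} ∧
    Real.exp (u ^ 2 / 4) * (disorder n).real {g | freeEnergy n β g ≤
      ∫ h, freeEnergy n β h ∂(disorder n) - u * √Var[freeEnergy n β; disorder n]} ≤
      (disorder n).real {g | ∫ h, freeEnergy n β h ∂(disorder n) +
        u * √Var[freeEnergy n β; disorder n] ≤ freeEnergy n β g} := by
  have hn0 : (0 : ℝ) < n := by exact_mod_cast hn
  have hZ1 := h.Z1 hn hZ
  obtain ⟨s1, s2⟩ := sd_both h hn hZ
  obtain ⟨σ, hσ⟩ : ∃ σ, σ = √Var[freeEnergy n β; disorder n] := ⟨_, rfl⟩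
  rw [← hσ] at s1 s2 ⊢
  have hN6 : 0 < (n : ℝ) ^ (1 / 6 : ℝ) := by positivity
  have hσ0 : 0 < σ := lt_of_lt_of_le (by positivity) s1
  have hZ2 : Z ≤ Z ^ 4 := by
    calc Z = Z ^ 1 := (pow_one Z).symm
      _ ≤ Z ^ 4 := pow_le_pow_right₀ hZ1 (by norm_num)
  have hZ22 : Z ^ 2 ≤ Z ^ 4 := pow_le_pow_right₀ hZ1 (by norm_num)
  have hZ40 : 0 < Z ^ 4 := by positivity
  have hY4 : 4 ≤ Y := by
    have : 1 ≤ Z ^ 4 := one_le_pow₀ hZ1
    linarith
  have hY0 : 0 < Y := by linarith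
  have hu0 : 0 < u := by linarith
  have hV : Var[freeEnergy n β; disorder n] = σ ^ 2 := by
    rw [hσ, Real.sq_sqrt (variance_nonneg _ _)]
  -- the right tail
  have e56 : (n : ℝ) ^ (-(5 / 6) : ℝ) * n = (n : ℝ) ^ (1 / 6 : ℝ) := by
    nth_rewrite 2 [← Real.rpow_one (n : ℝ)]
    rw [← Real.rpow_add hn0]
    norm_num
  have e56' : (n : ℝ) ^ (5 / 6 : ℝ) * (n : ℝ) ^ (1 / 6 : ℝ) = n := by
    rw [← Real.rpow_add hn0]
    norm_num
  have t1 : (n : ℝ) ^ (-(5 / 6) : ℝ) * Z ≤ u * σ / n := by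
    rw [le_div_iff₀ hn0]
    have h1 : Z * Z ≤ u := by nlinarith
    calc (n : ℝ) ^ (-(5 / 6) : ℝ) * Z * n = (n : ℝ) ^ (-(5 / 6) : ℝ) * n * Z := by ring
      _ = Z * Z * ((n : ℝ) ^ (1 / 6 : ℝ) / Z) := by
          rw [e56]
          field_simp
      _ ≤ u * σ := by gcongr
  have t2 : u * σ / n ≤ δ := by
    rw [div_le_iff₀ hn0]
    have hδ : 0 ≤ δ := by
      have h1 : 0 < δ * (n : ℝ) ^ (5 / 6 : ℝ) / Y := lt_of_lt_of_le hu0 hu1
      rw [lt_div_iff₀ hY0, zero_mul] at h1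
      exact (pos_of_mul_pos_left h1 (by positivity)).le
    calc u * σ ≤ δ * (n : ℝ) ^ (5 / 6 : ℝ) / Y * ((n : ℝ) ^ (1 / 6 : ℝ) * Z) := by gcongr
      _ = δ * ((n : ℝ) ^ (5 / 6 : ℝ) * (n : ℝ) ^ (1 / 6 : ℝ)) * (Z / Y) := by ring
      _ = δ * n * (Z / Y) := by rw [e56']
      _ ≤ δ * n * 1 := by
          gcongr
          rw [div_le_one hY0]
          linarith
      _ = δ * n := mul_one _
  obtain ⟨r1, -⟩ := h.right (u * σ / n) t1 t2
  have e1 : (n : ℝ) * (u * σ / n) = u * σ := by field_simp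
  rw [e1] at r1
  -- `Z n (uσ/n)^(6/5) ≤ Z^3 u^(6/5)`
  have r2 : Z * (n * (u * σ / n) ^ (6 / 5 : ℝ)) ≤ Z ^ 3 * u ^ (6 / 5 : ℝ) := by
    have h1 : u * σ / n ≤ u * Z * (n : ℝ) ^ (-(5 / 6) : ℝ) := by
      rw [div_le_iff₀ hn0]
      calc u * σ ≤ u * ((n : ℝ) ^ (1 / 6 : ℝ) * Z) := by gcongr
        _ = u * Z * ((n : ℝ) ^ (-(5 / 6) : ℝ) * n) := by rw [e56]; ring
        _ = _ := by ring
    have h2 : (u * σ / n) ^ (6 / 5 : ℝ) ≤ (u * Z * (n : ℝ) ^ (-(5 / 6) : ℝ)) ^ (6 / 5 : ℝ) :=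
      Real.rpow_le_rpow (by positivity) h1 (by norm_num)
    rw [Real.mul_rpow (by positivity) (by positivity), Real.mul_rpow hu0.le hZ.le,
      ← Real.rpow_mul hn0.le] at h2
    have h3 : (-(5 / 6) * (6 / 5) : ℝ) = -1 := by norm_num
    rw [h3, Real.rpow_neg_one] at h2
    have h4 : Z ^ (6 / 5 : ℝ) ≤ Z ^ (2 : ℝ) :=
      Real.rpow_le_rpow_of_exponent_le hZ1 (by norm_num)
    rw [Real.rpow_two] at h4
    calc Z * (n * (u * σ / n) ^ (6 / 5 : ℝ)) ≤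
          Z * (n * (u ^ (6 / 5 : ℝ) * Z ^ (6 / 5 : ℝ) * (n : ℝ)⁻¹)) := by gcongr
      _ ≤ Z * (n * (u ^ (6 / 5 : ℝ) * Z ^ 2 * (n : ℝ)⁻¹)) := by gcongr
      _ = Z ^ 3 * u ^ (6 / 5 : ℝ) * (n * (n : ℝ)⁻¹) := by ring
      _ = _ := by rw [mul_inv_cancel₀ hn0.ne', mul_one]
  have hZ3 : Z ^ 3 ≤ Z ^ 4 := pow_le_pow_right₀ hZ1 (by norm_num)
  have hu65 : 0 < u ^ (6 / 5 : ℝ) := by positivity
  have r3 : Real.exp (-(Z ^ 3 * u ^ (6 / 5 : ℝ))) ≤ (disorder n).real {g |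
      ∫ h, freeEnergy n β h ∂(disorder n) + u * σ ≤ freeEnergy n β g} :=
    (Real.exp_le_exp.2 (neg_le_neg r2)).trans r1
  refine ⟨(Real.exp_le_exp.2 (neg_le_neg ?_)).trans r3, ?_⟩
  · exact mul_le_mul_of_nonneg_right (by linarith) hu65.le
  · -- the left tail
    have l1 := left_tail (β := β) (n := n) (W := σ ^ 2) (u := u * σ) hn (by positivity) hV.le
      (by positivity)
    have e2 : (u * σ) ^ 2 / (2 * σ ^ 2) = u ^ 2 / 2 := by field_simp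
    rw [e2] at l1
    refine (mul_le_mul_of_nonneg_left l1 (Real.exp_pos _).le).trans (le_trans ?_ r3)
    rw [← Real.exp_add]
    refine Real.exp_le_exp.2 ?_
    -- `Z^3 u^(6/5) ≤ u^2/4`
    have h5 : Z ^ 3 * 4 ≤ u ^ (4 / 5 : ℝ) := by
      have hw0 : 0 < Z ^ 3 * 4 := by positivity
      have h8 : (Z ^ 3 * 4) ^ (1 / 4 : ℝ) ≤ 4 * Z := by
        have h9 : Z ^ 3 * 4 ≤ (4 * Z) ^ 4 := by
          have e5 : (4 * Z) ^ 4 = 256 * Z ^ 4 := by ring
          rw [e5]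
          linarith
        calc (Z ^ 3 * 4) ^ (1 / 4 : ℝ) ≤ ((4 * Z) ^ 4) ^ (1 / 4 : ℝ) :=
              Real.rpow_le_rpow hw0.le h9 (by norm_num)
          _ = 4 * Z := by
              rw [← Real.rpow_natCast, ← Real.rpow_mul (by positivity)]
              norm_num
      have h10 : (Z ^ 3 * 4) ^ (5 / 4 : ℝ) ≤ u := by
        have e6 : (Z ^ 3 * 4) ^ (5 / 4 : ℝ) = Z ^ 3 * 4 * (Z ^ 3 * 4) ^ (1 / 4 : ℝ) := by
          rw [show (5 / 4 : ℝ) = 1 + 1 / 4 by norm_num, Real.rpow_add hw0, Real.rpow_one]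
        rw [e6]
        calc Z ^ 3 * 4 * (Z ^ 3 * 4) ^ (1 / 4 : ℝ) ≤ Z ^ 3 * 4 * (4 * Z) := by gcongr
          _ = 16 * Z ^ 4 := by ring
          _ ≤ u := hY.trans hu
      calc Z ^ 3 * 4 = ((Z ^ 3 * 4) ^ (5 / 4 : ℝ)) ^ (4 / 5 : ℝ) := by
            rw [← Real.rpow_mul hw0.le]
            norm_num
        _ ≤ u ^ (4 / 5 : ℝ) := Real.rpow_le_rpow (by positivity) h10 (by norm_num)
    have e4 : u ^ (6 / 5 : ℝ) * u ^ (4 / 5 : ℝ) = u ^ 2 := by
      rw [← Real.rpow_add hu0, ← Real.rpow_natCast]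
      norm_num
    have h7 : u ^ (6 / 5 : ℝ) * (Z ^ 3 * 4) ≤ u ^ 2 := by
      rw [← e4]
      exact mul_le_mul_of_nonneg_left h5 hu65.le
    linarith

/-- **Large fluctuations at one `n`.** -/
theorem big_of (h : Out β Z δ c g n) (hn : 1 ≤ n) (hZ : 0 < Z) {Y u : ℝ} (hY : 36 * Z ≤ Y)
    (hu : 0 ≤ u) : (disorder n).real {g | u * ((n : ℝ) ^ (1 / 6 : ℝ) * Y) ≤
      |freeEnergy n β g - ∫ h, freeEnergy n β h ∂(disorder n)|} ≤ 7 * Real.exp (-u) := by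
  have hn1 : (1 : ℝ) ≤ n := by exact_mod_cast hn
  have hn0 : (0 : ℝ) < n := by linarith
  have hZ1 := h.Z1 hn hZ
  obtain ⟨-, s2⟩ := sd_both h hn hZ
  have hN : 1 ≤ (n : ℝ) ^ (1 / 6 : ℝ) := Real.one_le_rpow hn1 (by norm_num)
  have hs := Real.sqrt_nonneg (Var[freeEnergy n β; disorder n])
  obtain ⟨x, hx⟩ : ∃ x, x = (18 * (1 + √Var[freeEnergy n β; disorder n]))⁻¹ := ⟨_, rfl⟩
  have hs0 : 0 < 18 * (1 + √Var[freeEnergy n β; disorder n]) := by positivity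
  have hx0 : 0 < x := by rw [hx]; positivity
  have hx1 : x * (18 * (1 + H320.MomP.sd n β)) ≤ 1 := by
    rw [hx]
    exact (inv_mul_cancel₀ hs0.ne').le
  obtain ⟨i1, b1⟩ := H320.MomP.exp_abs n β hx0.le hx1
  have h1 : 18 * (1 + √Var[freeEnergy n β; disorder n]) ≤ (n : ℝ) ^ (1 / 6 : ℝ) * Y := by
    have h2 : 1 ≤ (n : ℝ) ^ (1 / 6 : ℝ) * Z := by nlinarith
    calc 18 * (1 + √Var[freeEnergy n β; disorder n]) ≤ 36 * ((n : ℝ) ^ (1 / 6 : ℝ) * Z) := by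
          linarith
      _ = (n : ℝ) ^ (1 / 6 : ℝ) * (36 * Z) := by ring
      _ ≤ _ := by gcongr
  have h2 : 1 ≤ x * ((n : ℝ) ^ (1 / 6 : ℝ) * Y) := by
    rw [hx, inv_mul_eq_div, one_le_div hs0]
    exact h1
  have h3 := mul_meas_ge_le_integral_of_nonneg (μ := disorder n)
    (f := fun g => Real.exp (x * |freeEnergy n β g - H320.MomP.mn n β|))
    (Filter.Eventually.of_forall fun g => (Real.exp_pos _).le) i1 (Real.exp u)
  have h4 : (disorder n).real {g | u * ((n : ℝ) ^ (1 / 6 : ℝ) * Y) ≤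
      |freeEnergy n β g - ∫ h, freeEnergy n β h ∂(disorder n)|} ≤ (disorder n).real {g |
      Real.exp u ≤ Real.exp (x * |freeEnergy n β g - H320.MomP.mn n β|)} := by
    refine measureReal_mono fun g hg => ?_
    simp only [mem_setOf_eq] at hg ⊢
    refine Real.exp_le_exp.2 ?_
    calc u = u * 1 := (mul_one u).symm
      _ ≤ u * (x * ((n : ℝ) ^ (1 / 6 : ℝ) * Y)) := by gcongr
      _ = x * (u * ((n : ℝ) ^ (1 / 6 : ℝ) * Y)) := by ring
      _ ≤ _ := mul_le_mul_of_nonneg_left hg hx0.le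
  refine h4.trans ?_
  rw [Real.exp_neg, ← div_eq_mul_inv, le_div_iff₀ (Real.exp_pos u), mul_comm]
  exact h3.trans b1

/-- **The one-sided moments at one `n`.** -/
theorem one_of (h : Out β Z δ c g n) (hn : 1 ≤ n) (hZ : 0 < Z) {p : ℝ} (hp : 0 < p) :
    ((n : ℝ) ^ (1 / 6 : ℝ) / Z) ^ p * (1 / 10 ^ 10) ≤ ∫ g, (max (freeEnergy n β g -
      ∫ h, freeEnergy n β h ∂(disorder n)) 0) ^ p ∂(disorder n) ∧
    ((n : ℝ) ^ (1 / 6 : ℝ) / Z) ^ p * (1 / 10 ^ 10) ≤ ∫ g, (max (∫ h, freeEnergy n β h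
      ∂(disorder n) - freeEnergy n β g) 0) ^ p ∂(disorder n) := by
  have hn0 : (0 : ℝ) < n := by exact_mod_cast hn
  obtain ⟨m, hm⟩ : ∃ m, m = ∫ h, freeEnergy n β h ∂(disorder n) := ⟨_, rfl⟩
  have g1 := h.sides
  rw [← hm] at g1 ⊢
  obtain ⟨x, hx⟩ : ∃ x, x = (18 * (1 + √Var[freeEnergy n β; disorder n]))⁻¹ := ⟨_, rfl⟩
  have hs0 : 0 < 18 * (1 + √Var[freeEnergy n β; disorder n]) := by positivity
  have hx0 : 0 < x := by rw [hx]; positivity
  have hx1 : x * (18 * (1 + √Var[freeEnergy n β; disorder n])) ≤ 1 := by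
    rw [hx, inv_mul_cancel₀ hs0.ne']
  obtain ⟨i1, b1⟩ := H641.exp_moment n β hx0.le (show x * (18 * H641.sd1 n β) ≤ 1 from hx1)
  obtain ⟨i2, b2⟩ := H655.exp_moment_neg n β hx0.le hx1
  rw [← hm] at i2 b2
  have i1' : Integrable (fun g => Real.exp (x * (freeEnergy n β g - m))) (disorder n) := by
    rw [hm]
    exact i1
  have b1' : ∫ g, Real.exp (x * (freeEnergy n β g - m)) ∂(disorder n) ≤ 7 / 2 := by
    rw [hm]
    exact b1
  have e2 : ∀ g, Real.exp (x * (m - freeEnergy n β g)) =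
      Real.exp (-(x * (freeEnergy n β g - m))) := fun g => by
    congr 1
    ring
  have i2' : Integrable (fun g => Real.exp (x * (m - freeEnergy n β g))) (disorder n) := by
    simp only [e2]
    exact i2
  have b2' : ∫ g, Real.exp (x * (m - freeEnergy n β g)) ∂(disorder n) ≤ 7 / 2 := by
    simp only [e2]
    exact b2
  have hM : Measurable (freeEnergy n β) := (H863.cont_freeEnergy n β).measurable
  have hY : Measurable fun g => freeEnergy n β g - m := hM.sub_const m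
  have hW : Measurable fun g => m - freeEnergy n β g := hM.const_sub m
  have ha : 0 < (n : ℝ) ^ (1 / 6 : ℝ) / Z := by positivity
  have hap : 0 ≤ ((n : ℝ) ^ (1 / 6 : ℝ) / Z) ^ p := by positivity
  obtain ⟨I1, -⟩ := H762.pos_upper (μ := disorder n) hY hx0 hp i1' b1'
  obtain ⟨I2, -⟩ := H762.pos_upper (μ := disorder n) hW hx0 hp i2' b2'
  have L1 := H762.pos_lower (μ := disorder n) hY ha hp I1
  have L2 := H762.pos_lower (μ := disorder n) hW ha hp I2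
  constructor
  · refine (mul_le_mul_of_nonneg_left (g1.1.trans (measureReal_mono fun g hg => ?_)) hap).trans L1
    simp only [mem_setOf_eq] at hg ⊢
    linarith
  · refine (mul_le_mul_of_nonneg_left (g1.2.trans (measureReal_mono fun g hg => ?_)) hap).trans L2
    simp only [mem_setOf_eq] at hg ⊢
    linarith

end Vale.Agent.P146.H605S
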