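import Vale.Agent.P146.H605S.EndL
import Vale.Agent.P146.H605S.OutU
import Vale.Agent.P146.H196.UnionB

set_option linter.all false

/-!
# P146: order and law of the fluctuations up to powers of `log n`, from the entropy
-/

open MeasureTheory ProbabilityTheory Filter Topology

namespace Vale.Agent.P146.H605S

open Vale.Agent.P146 Vale.Agent.P146.H605
open Vale.Agent.P146.H196 (meanF sdF)

/-- **Order and law of the fluctuations of the free energy, from `KLog`.** -/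
theorem unionL {β b₀ C₀ : ℝ} (hβ : 1 < β) (hb : 0 < b₀) (hb1 : b₀ < 1 / 15)
    (hK : KLog β b₀ C₀ fun _ => C₀) :
    (∃ C c : ℝ, 0 < C ∧ 0 < c ∧
      (∀ᶠ n : ℕ in atTop,
        -- the variance
        (n : ℝ) ^ (1 / 3 : ℝ) / Real.log n ^ C ≤ Var[freeEnergy n β; disorder n] ∧
        Var[freeEnergy n β; disorder n] ≤ (n : ℝ) ^ (1 / 3 : ℝ) * Real.log n ^ C ∧
        -- both sides, with constant probability
        1 / 10 ^ 10 ≤ (disorder n).real {g | meanF n β + (n : ℝ) ^ (1 / 6 : ℝ) / Real.log n ^ C ≤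
          freeEnergy n β g} ∧
        1 / 10 ^ 10 ≤ (disorder n).real {g | freeEnergy n β g ≤
          meanF n β - (n : ℝ) ^ (1 / 6 : ℝ) / Real.log n ^ C} ∧
        -- small balls and large fluctuations
        (∀ u : ℝ, 0 ≤ u →
          (∀ y : ℝ, (disorder n).real {g | |freeEnergy n β g - y| ≤ u} ≤
            (1 + u) * Real.log n ^ C / (n : ℝ) ^ (1 / 6 : ℝ)) ∧
          (disorder n).real {g | u * ((n : ℝ) ^ (1 / 6 : ℝ) * Real.log n ^ C) ≤
            |freeEnergy n β g - meanF n β|} ≤ 7 * Real.exp (-u)) ∧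
        -- the exponential moments
        (∀ x : ℝ, Real.log n ^ C / (n : ℝ) ^ (1 / 6 : ℝ) ≤ x → x ≤ 1 →
          n * x ^ 6 / Real.log n ^ C ≤
            Real.log (∫ g, Real.exp (x * (freeEnergy n β g - meanF n β)) ∂(disorder n)) ∧
          Real.log (∫ g, Real.exp (x * (freeEnergy n β g - meanF n β)) ∂(disorder n)) ≤
            C * (n * x ^ 6)) ∧
        -- the right tail
        (∀ s : ℝ, Real.log n ^ C / (n : ℝ) ^ (5 / 6 : ℝ) ≤ s → s ≤ c →
          Real.exp (-(Real.log n ^ C * (n * s ^ (6 / 5 : ℝ)))) ≤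
            (disorder n).real {g | meanF n β + n * s ≤ freeEnergy n β g} ∧
          (disorder n).real {g | meanF n β + n * s ≤ freeEnergy n β g} ≤
            Real.exp (-(c * (n * s ^ (6 / 5 : ℝ))))) ∧
        -- asymmetry
        (∀ u : ℝ, Real.log n ^ C ≤ u → u ≤ (n : ℝ) ^ (5 / 6 : ℝ) / Real.log n ^ C →
          Real.exp (-(Real.log n ^ C * u ^ (6 / 5 : ℝ))) ≤
            (disorder n).real {g | meanF n β + u * sdF n β ≤ freeEnergy n β g} ∧
          Real.exp (u ^ 2 / 4) * (disorder n).real {g | freeEnergy n β g ≤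
            meanF n β - u * sdF n β} ≤
              (disorder n).real {g | meanF n β + u * sdF n β ≤ freeEnergy n β g}) ∧
        -- chaos
        (∃ t : ℝ, 0 ≤ t ∧ t < 1 ∧
          (n : ℝ) ^ (1 / 3 : ℝ) / Real.log n ^ C ≤ n * (1 - t) * crossOverlap n β t) ∧
        (∀ t : ℝ, 0 ≤ t → t < 1 → n * (1 - t) * crossOverlap n β t ≤
          (n : ℝ) ^ (1 / 3 : ℝ) * Real.log n ^ C)) ∧
      -- all moments
      (∀ p : ℝ, 0 < p → ∀ᶠ n : ℕ in atTop,
        (∀ y : ℝ, ((n : ℝ) ^ (1 / 6 : ℝ) / Real.log n ^ C) ^ p ≤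
          ∫ g, |freeEnergy n β g - y| ^ p ∂(disorder n)) ∧
        ((n : ℝ) ^ (1 / 6 : ℝ) / Real.log n ^ C) ^ p ≤
          ∫ g, (max (freeEnergy n β g - meanF n β) 0) ^ p ∂(disorder n) ∧
        ((n : ℝ) ^ (1 / 6 : ℝ) / Real.log n ^ C) ^ p ≤
          ∫ g, (max (meanF n β - freeEnergy n β g) 0) ^ p ∂(disorder n) ∧
        ∫ g, |freeEnergy n β g - meanF n β| ^ p ∂(disorder n) ≤
          ((n : ℝ) ^ (1 / 6 : ℝ) * Real.log n ^ C) ^ p)) ∧
    -- the limit laws of `(F_n - E F_n) / (Var F_n)^(1/2)`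
    (∀ N : ℕ → ℕ, Tendsto N atTop atTop →
      ∃ (φ : ℕ → ℕ) (p : ℝ → ℝ), StrictMono φ ∧ (∀ x, 0 ≤ p x ∧ p x ≤ 145) ∧
      (∀ s t : ℝ, 0 < s → 0 < t → s + t = 1 → ∀ x y : ℝ,
        p x ^ s * p y ^ t ≤ p (s * x + t * y)) ∧
      ∫ x, p x = 1 ∧ ∫ x, x * p x = 0 ∧ ∫ x, x ^ 2 * p x = 1 ∧
      (Integrable (fun x => x ^ 3 * p x) ∧ 0 ≤ ∫ x, x ^ 3 * p x) ∧
      (∀ u : ℝ, 0 ≤ u → ∫ x in Set.Iic (-u), p x ≤ Real.exp (-(u ^ 2 / 2))) ∧
      (∀ u : ℝ, 0 ≤ u → Integrable (fun x => Real.exp (-(u * x)) * p x) ∧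
        ∫ x, Real.exp (-(u * x)) * p x ≤ Real.exp (u ^ 2 / 2)) ∧
      (∀ u : ℝ, 0 ≤ u → u < 1 / 36 → Integrable (fun x => Real.exp (u * x) * p x) ∧
        Real.exp (u ^ 2 / 2) ≤ ∫ x, Real.exp (u * x) * p x ∧
        ∫ x, Real.exp (u * x) * p x ≤ 7 / 2) ∧
      ∀ f : ℝ → ℝ, Continuous f → (∃ C, ∀ x, |f x| ≤ C) →
        Tendsto (fun k => ∫ g, f ((freeEnergy (N (φ k)) β g - meanF (N (φ k)) β) /
          sdF (N (φ k)) β) ∂(disorder (N (φ k)))) atTop (𝓝 (∫ x, f x * p x))) ∧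
    -- comparison with the Gaussian law of the same variance, for every `n`
    (∀ n : ℕ, 2 ≤ n →
      (∀ x : ℝ, 0 ≤ x →
        ∫ g, Real.exp (-(x * (freeEnergy n β g - meanF n β))) ∂(disorder n) ≤
          Real.exp (x ^ 2 / 2 * Var[freeEnergy n β; disorder n]) ∧
        Real.exp (x ^ 2 / 2 * Var[freeEnergy n β; disorder n]) ≤
          ∫ g, Real.exp (x * (freeEnergy n β g - meanF n β)) ∂(disorder n)) ∧
      0 ≤ ∫ g, (freeEnergy n β g - meanF n β) ^ 3 ∂(disorder n)) := by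
  refine ⟨?_, fun N hN => H196.Un.limit_all hβ hN,
    fun n hn => H762.gauss_compare n (by omega) β⟩
  obtain ⟨D, δ, c, hD, hδ, hc, hout⟩ := out_const hβ hb hb1 hK
  have hmom := moments (c := fun _ => c) (g := fun _ => D) hD hout
  obtain ⟨C, hC⟩ : ∃ C, C = 4 * D + 1 := ⟨_, rfl⟩
  have hC0 : 0 < C := by rw [hC]; linarith
  refine ⟨C, min δ c, hC0, lt_min hδ hc, ?_, fun p hp => ?_⟩
  · filter_upwards [hout, log_ge 36, log_ge (16 / δ), eventually_ge_atTop 1] with n h h2 h4 hn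
    have hn1 : (1 : ℝ) ≤ n := by exact_mod_cast hn
    have hn0 : (0 : ℝ) < n := by linarith
    obtain ⟨L, hL⟩ : ∃ L, L = Real.log n := ⟨_, rfl⟩
    rw [← hL] at h h2 h4 ⊢
    have hL1 : 1 ≤ L := by linarith
    have hL0 : 0 < L := by linarith
    obtain ⟨Z, hZ⟩ : ∃ Z, Z = L ^ D := ⟨_, rfl⟩
    rw [← hZ] at h
    have hZ0 : 0 < Z := by rw [hZ]; positivity
    have hZ1 : 1 ≤ Z := by rw [hZ]; exact Real.one_le_rpow hL1 hD.le
    obtain ⟨Y, hY⟩ : ∃ Y, Y = L ^ C := ⟨_, rfl⟩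
    rw [← hY]
    have hYL : Y = L * Z ^ 4 := by
      rw [hY, hZ, hC, Real.rpow_add_one hL0.ne', ← Real.rpow_natCast, ← Real.rpow_mul hL0.le,
        mul_comm]
      push_cast
      rw [mul_comm D 4]
    have hZ4 : Z ≤ Z ^ 4 := by
      calc Z = Z ^ 1 := (pow_one Z).symm
        _ ≤ Z ^ 4 := pow_le_pow_right₀ hZ1 (by norm_num)
    have hZ40 : 0 < Z ^ 4 := by positivity
    have hY0 : 0 < Y := by rw [hYL]; positivity
    have hZY : Z ≤ Y := by
      rw [hYL]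
      nlinarith
    have hY36 : 36 * Z ≤ Y := by
      rw [hYL]
      nlinarith
    have hY16 : 16 * Z ^ 4 ≤ Y := by
      rw [hYL]
      nlinarith
    have hDC : D ≤ C := by rw [hC]; linarith
    have h' : Out β Y (min δ c) (min δ c) C n := by
      have h1 := h.mono hn hZ0 hZY (min_le_right δ c) hDC
      exact ⟨h1.var, h1.mom, fun s a b => h1.right s a (b.trans (min_le_left _ _)), h1.left,
        h1.small, h1.sides, h1.chaos⟩
    have e6 : Y / (n : ℝ) ^ (1 / 6 : ℝ) = (n : ℝ) ^ (-(1 / 6) : ℝ) * Y := by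
      rw [Real.rpow_neg hn0.le, div_eq_inv_mul]
    have e56 : Y / (n : ℝ) ^ (5 / 6 : ℝ) = (n : ℝ) ^ (-(5 / 6) : ℝ) * Y := by
      rw [Real.rpow_neg hn0.le, div_eq_inv_mul]
    refine ⟨h'.var.1, h'.var.2, h'.sides.1, h'.sides.2, fun u hu => ⟨fun y => ?_, ?_⟩,
      fun x hx hx1 => ?_, fun s hs hs1 => ?_, fun u hu hu1 => ?_, h'.chaos.1, h'.chaos.2⟩
    · refine (h'.small y u hu).trans (le_of_eq ?_)
      rw [← e6]
      ring
    · exact big_of h hn hZ0 hY36 hu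
    · rw [e6] at hx
      exact h'.mom x hx hx1
    · rw [e56] at hs
      exact h'.right s hs hs1
    · -- asymmetry: the range `u ≤ n^(5/6) / L^C`, `L^C ≥ 16 Z^4 / δ`
      have hY10 : 0 < 16 * Z ^ 4 := by positivity
      have hYδ : 16 * Z ^ 4 ≤ δ * Y := by
        rw [div_le_iff₀ hδ] at h4
        rw [hYL]
        nlinarith
      have h5 := asym_of h hn hZ0 (le_refl (16 * Z ^ 4)) (hY16.trans hu) (hu1.trans (by
        rw [div_le_div_iff₀ hY0 hY10]
        have h6 := mul_le_mul_of_nonneg_left hYδ (by positivity : 0 ≤ (n : ℝ) ^ (5 / 6 : ℝ))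
        linarith))
      have hu0 : 0 < u := hY0.trans_le hu
      refine ⟨(Real.exp_le_exp.2 (neg_le_neg ?_)).trans h5.1, h5.2⟩
      exact mul_le_mul_of_nonneg_right hY16 (by positivity)
  · filter_upwards [hmom p hp, hout, log_ge ((10 ^ 10) ^ (1 / p)), log_ge 1,
      eventually_ge_atTop 1] with n h1 h2 h3 h4 hn
    have hn1 : (1 : ℝ) ≤ n := by exact_mod_cast hn
    have hn0 : (0 : ℝ) < n := by linarith
    obtain ⟨L, hL⟩ : ∃ L, L = Real.log n := ⟨_, rfl⟩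
    rw [← hL] at h1 h2 h3 h4 ⊢
    have hL0 : 0 < L := by linarith
    have hZ0 : 0 < L ^ D := by positivity
    have e1 : ((n : ℝ) ^ (1 / 6 : ℝ) / L ^ C) ^ p = (n : ℝ) ^ (p / 6) * L ^ (-(C * p)) := by
      rw [Real.div_rpow (by positivity) (by positivity), ← Real.rpow_mul hn0.le,
        ← Real.rpow_mul hL0.le, Real.rpow_neg hL0.le, div_eq_mul_inv]
      congr 2
      ring
    have e2 : ((n : ℝ) ^ (1 / 6 : ℝ) * L ^ C) ^ p = (n : ℝ) ^ (p / 6) * L ^ (C * p) := by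
      rw [Real.mul_rpow (by positivity) (by positivity), ← Real.rpow_mul hn0.le,
        ← Real.rpow_mul hL0.le]
      congr 2
      ring
    have hCD : (D + 1) * p ≤ C * p := mul_le_mul_of_nonneg_right (by rw [hC]; linarith) hp.le
    obtain ⟨o1, o2⟩ := one_of h2 hn hZ0 hp
    have h5 : ((n : ℝ) ^ (1 / 6 : ℝ) / L ^ C) ^ p ≤
        ((n : ℝ) ^ (1 / 6 : ℝ) / L ^ D) ^ p * (1 / 10 ^ 10) := by
      have e3 : L ^ C = L ^ D * L ^ (3 * D + 1) := by
        rw [← Real.rpow_add hL0]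
        congr 1
        rw [hC]
        ring
      have h6 : L ≤ L ^ (3 * D + 1) := by
        calc L = L ^ (1 : ℝ) := (Real.rpow_one L).symm
          _ ≤ L ^ (3 * D + 1) := Real.rpow_le_rpow_of_exponent_le h4 (by linarith)
      have h7 : ((10 : ℝ) ^ 10) ≤ (L ^ (3 * D + 1)) ^ p := by
        calc ((10 : ℝ) ^ 10) = (((10 : ℝ) ^ 10) ^ (1 / p)) ^ p := by
              rw [← Real.rpow_mul (by positivity), one_div, inv_mul_cancel₀ hp.ne',
                Real.rpow_one]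
          _ ≤ (L ^ (3 * D + 1)) ^ p :=
              Real.rpow_le_rpow (by positivity) (h3.trans h6) hp.le
      have e4 : ((n : ℝ) ^ (1 / 6 : ℝ) / L ^ C) ^ p =
          ((n : ℝ) ^ (1 / 6 : ℝ) / L ^ D) ^ p * (1 / (L ^ (3 * D + 1)) ^ p) := by
        rw [e3, ← div_div, Real.div_rpow (by positivity) (by positivity), div_eq_mul_one_div]
      rw [e4]
      refine mul_le_mul_of_nonneg_left ?_ (by positivity)
      exact one_div_le_one_div_of_le (by positivity) h7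
    refine ⟨fun y => ?_, h5.trans o1, h5.trans o2, ?_⟩
    · refine le_trans ?_ (h1.1 y)
      rw [e1]
      refine mul_le_mul_of_nonneg_left ?_ (by positivity)
      exact Real.rpow_le_rpow_of_exponent_le h4 (by linarith)
    · refine h1.2.trans ?_
      rw [e2]
      refine mul_le_mul_of_nonneg_left ?_ (by positivity)
      exact Real.rpow_le_rpow_of_exponent_le h4 hCD

end Vale.Agent.P146.H605S
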