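import Vale.Agent.P146.H605S.EndJ
import Vale.Agent.P146.H605S.UnionL
import Vale.Agent.P146.H558.S3Main

set_option linter.all false

/-!
# P146: the response and the entropy up to powers of `log n`, without hypotheses
-/

open MeasureTheory ProbabilityTheory Filter Topology Set

namespace Vale.Agent.P146.H605S

open Vale.Agent.P146

/-- **`KLog`**, for every `β > 1`. -/
theorem klog_all {β b₁ : ℝ} (hβ : 1 < β) (hb₁ : 0 < b₁) (h1 : b₁ < 1 / 180) :
    ∃ C₀ : ℝ, KLog β b₁ C₀ fun _ => C₀ := by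
  obtain ⟨G, -, hJ⟩ := S3.joint_all hβ hb₁ h1
  exact klog_of_joint hβ hb₁ hJ

end Vale.Agent.P146.H605S
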