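import Vale.Agent.P146.H605S.EndN

set_option linter.all false

/-!
# P146: all conclusions at one `n`

From `Bd` at `P n ^ (-1/6)` with `ℓ = 1 / P`, and from `Bd` at `y₂` with a constant `ℓ = c`: the
variance, the exponential moments, both tails, the small balls, both sides and the chaos profile,
with the factor `Z ≥ K P ^ 6`.
-/

open MeasureTheory ProbabilityTheory Filter Topology Set

namespace Vale.Agent.P146.H605S

open Vale.Agent.P146 Vale.Agent.P146.H605 Vale.Agent.P146.H260.Dev Vale.Agent.P146.H260.V13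
open Vale.Agent.P146.H260.V14

variable {β : ℝ} {n : ℕ}

lemma r4 (hn : 1 ≤ n) : (n : ℝ) * ((n : ℝ) ^ (-(1 / 6) : ℝ)) ^ 4 = (n : ℝ) ^ (1 / 3 : ℝ) := by
  have hn0 : (0 : ℝ) < n := by exact_mod_cast hn
  rw [← Real.rpow_natCast, ← Real.rpow_mul hn0.le]
  nth_rewrite 1 [← Real.rpow_one (n : ℝ)]
  rw [← Real.rpow_add hn0]
  norm_num

lemma r6 (hn : 1 ≤ n) : (n : ℝ) * ((n : ℝ) ^ (-(1 / 6) : ℝ)) ^ 6 = 1 := by
  have hn0 : (0 : ℝ) < n := by exact_mod_cast hn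
  rw [← Real.rpow_natCast, ← Real.rpow_mul hn0.le]
  nth_rewrite 1 [← Real.rpow_one (n : ℝ)]
  rw [← Real.rpow_add hn0]
  norm_num

lemma r5 (hn : 1 ≤ n) : ((n : ℝ) ^ (-(1 / 6) : ℝ)) ^ 5 = (n : ℝ) ^ (-(5 / 6) : ℝ) := by
  have hn0 : (0 : ℝ) < n := by exact_mod_cast hn
  rw [← Real.rpow_natCast, ← Real.rpow_mul hn0.le]
  norm_num

lemma r1 (hn : 1 ≤ n) : (n : ℝ) ^ (1 / 6 : ℝ) * (n : ℝ) ^ (-(1 / 6) : ℝ) = 1 := by
  have hn0 : (0 : ℝ) < n := by exact_mod_cast hn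
  rw [← Real.rpow_add hn0]
  norm_num

/-- The conclusions, at one `n`: `Z` is the factor of error, `δ` the range of the right tail,
`c` its constant, `g` the constant of the exponential moments from above. -/
structure Out (β : ℝ) (Z δ c g : ℝ) (n : ℕ) : Prop where
  var : (n : ℝ) ^ (1 / 3 : ℝ) / Z ≤ Var[freeEnergy n β; disorder n] ∧
    Var[freeEnergy n β; disorder n] ≤ (n : ℝ) ^ (1 / 3 : ℝ) * Z
  mom : ∀ x : ℝ, (n : ℝ) ^ (-(1 / 6) : ℝ) * Z ≤ x → x ≤ 1 →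
    n * x ^ 6 / Z ≤ Real.log (∫ g, Real.exp (x * (freeEnergy n β g -
      ∫ h, freeEnergy n β h ∂(disorder n))) ∂(disorder n)) ∧
    Real.log (∫ g, Real.exp (x * (freeEnergy n β g -
      ∫ h, freeEnergy n β h ∂(disorder n))) ∂(disorder n)) ≤ g * (n * x ^ 6)
  right : ∀ s : ℝ, (n : ℝ) ^ (-(5 / 6) : ℝ) * Z ≤ s → s ≤ δ →
    Real.exp (-(Z * (n * s ^ (6 / 5 : ℝ)))) ≤ (disorder n).real {g |
      ∫ h, freeEnergy n β h ∂(disorder n) + n * s ≤ freeEnergy n β g} ∧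
    (disorder n).real {g | ∫ h, freeEnergy n β h ∂(disorder n) + n * s ≤ freeEnergy n β g} ≤
      Real.exp (-(c * (n * s ^ (6 / 5 : ℝ))))
  left : ∀ u : ℝ, 0 ≤ u → (disorder n).real {g | freeEnergy n β g ≤
    ∫ h, freeEnergy n β h ∂(disorder n) - u} ≤
      Real.exp (-(u ^ 2 / (2 * ((n : ℝ) ^ (1 / 3 : ℝ) * Z))))
  small : ∀ y u : ℝ, 0 ≤ u → (disorder n).real {g | |freeEnergy n β g - y| ≤ u} ≤
    (1 + u) * ((n : ℝ) ^ (-(1 / 6) : ℝ) * Z)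
  sides : 1 / 10 ^ 10 ≤ (disorder n).real {g | ∫ h, freeEnergy n β h ∂(disorder n) +
      (n : ℝ) ^ (1 / 6 : ℝ) / Z ≤ freeEnergy n β g} ∧
    1 / 10 ^ 10 ≤ (disorder n).real {g | freeEnergy n β g ≤
      ∫ h, freeEnergy n β h ∂(disorder n) - (n : ℝ) ^ (1 / 6 : ℝ) / Z}
  chaos : (∃ t : ℝ, 0 ≤ t ∧ t < 1 ∧
      (n : ℝ) ^ (1 / 3 : ℝ) / Z ≤ n * (1 - t) * crossOverlap n β t) ∧
    ∀ t : ℝ, 0 ≤ t → t < 1 → n * (1 - t) * crossOverlap n β t ≤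
      (n : ℝ) ^ (1 / 3 : ℝ) * Z

/-- The numerical conditions. -/
structure Num (β : ℝ) (n : ℕ) (P Z G c₂ y₂ δ c : ℝ) : Prop where
  b1 : 1 ≤ β
  P1 : 2 ≤ P
  GP : G ≤ P
  zA : 6013440 * P ≤ Z
  zB : 1296 * P ^ 2 ≤ Z
  zC : 258 * P ^ 3 ≤ Z
  zD : 17 * P ^ 5 ≤ Z
  zE : 2 * P ^ 6 ≤ Z
  zF : (2 + 64 * (2 / c₂) ^ (6 / 5 : ℝ)) * P ≤ Z
  zG : 2592 * β ^ 2 * Real.log n * P ^ 2 ≤ Z
  nA : 375840 * (P * (n : ℝ) ^ (-(1 / 6) : ℝ)) ≤ 1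
  nB : 2592 * β ^ 2 * P ^ 2 ≤ (n : ℝ) ^ (1 / 3 : ℝ)
  nC : 2 ≤ c₂ * (n * y₂ ^ 6)
  nD : 32 * c₂ * y₂ ^ 5 * P ≤ 1
  dA : 64 * δ ≤ c₂
  dB : δ ≤ 2 * G
  cA : c * (2 * G) ^ (6 / 5 : ℝ) ≤ G

section one

variable {P Z G c₂ y₂ δ c : ℝ}

lemma Num.Z0 (k : Num β n P Z G c₂ y₂ δ c) : 0 < Z := by
  have h1 := k.P1
  have h2 := k.zA
  linarith

lemma Num.PZ (k : Num β n P Z G c₂ y₂ δ c) : P ≤ Z := by
  have h1 := k.P1
  have h2 := k.zA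
  linarith

/-- the first condition of `sd_low` -/
lemma two_le (k : Num β n P Z G c₂ y₂ δ c) (hn : 1 ≤ n) :
    2 ≤ P⁻¹ * (n * (P * (n : ℝ) ^ (-(1 / 6) : ℝ)) ^ 6) := by
  have h1 := k.P1
  have e : P⁻¹ * (n * (P * (n : ℝ) ^ (-(1 / 6) : ℝ)) ^ 6) =
      P⁻¹ * P * (P ^ 5 * (n * ((n : ℝ) ^ (-(1 / 6) : ℝ)) ^ 6)) := by ring
  rw [e, inv_mul_cancel₀ (by linarith), r6 hn, one_mul, mul_one]
  calc (2 : ℝ) ≤ P := h1
    _ = P ^ 1 := (pow_one P).symm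
    _ ≤ P ^ 5 := pow_le_pow_right₀ (by linarith) (by norm_num)

lemma sd_lo (h : Bd β n (P * (n : ℝ) ^ (-(1 / 6) : ℝ)) P⁻¹ G) (k : Num β n P Z G c₂ y₂ δ c) :
    (n : ℝ) ^ (1 / 6 : ℝ) / (36 * P) ≤ √Var[freeEnergy n β; disorder n] := by
  have hn := h.n1
  have hn0 := h.n0
  have hP := k.P1
  have h1 := h.sd (two_le k hn)
  have h2 := k.nA
  obtain ⟨y, hy⟩ : ∃ y, y = P * (n : ℝ) ^ (-(1 / 6) : ℝ) := ⟨_, rfl⟩
  have hy0 : 0 < y := by rw [hy]; positivity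
  rw [← hy] at h1 h2
  have e : (n : ℝ) ^ (1 / 6 : ℝ) / (36 * P) = 1 / (36 * y) := by
    rw [hy, div_eq_div_iff (by positivity) (by positivity)]
    linear_combination (36 * P) * r1 hn
  rw [e]
  have h3 : (1 : ℝ) ≤ 1 / (36 * y) := by
    rw [le_div_iff₀ (by positivity)]
    linarith
  have e2 : 1 / (18 * y) = 1 / (36 * y) + 1 / (36 * y) := by
    field_simp
    norm_num
  linarith

lemma var_lo (h : Bd β n (P * (n : ℝ) ^ (-(1 / 6) : ℝ)) P⁻¹ G) (k : Num β n P Z G c₂ y₂ δ c) :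
    (n : ℝ) ^ (1 / 3 : ℝ) / (1296 * P ^ 2) ≤ Var[freeEnergy n β; disorder n] := by
  have hn := h.n1
  have hn0 := h.n0
  have hP := k.P1
  have h1 := sd_lo h k
  have h2 : ((n : ℝ) ^ (1 / 6 : ℝ) / (36 * P)) ^ 2 ≤ (√Var[freeEnergy n β; disorder n]) ^ 2 :=
    pow_le_pow_left₀ (by positivity) h1 2
  rw [Real.sq_sqrt (variance_nonneg _ _), div_pow, ← Real.rpow_natCast,
    ← Real.rpow_mul hn0.le] at h2
  refine le_trans (le_of_eq ?_) h2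
  norm_num
  ring

lemma var_hi (h : Bd β n (P * (n : ℝ) ^ (-(1 / 6) : ℝ)) P⁻¹ G) (k : Num β n P Z G c₂ y₂ δ c) :
    Var[freeEnergy n β; disorder n] ≤ 8 * P ^ 5 * (n : ℝ) ^ (1 / 3 : ℝ) := by
  have hn := h.n1
  have hn0 := h.n0
  have hP := k.P1
  have hG := k.GP
  have e : (n : ℝ) * (P * (n : ℝ) ^ (-(1 / 6) : ℝ)) ^ 4 = P ^ 4 * (n : ℝ) ^ (1 / 3 : ℝ) := by
    rw [mul_pow, mul_left_comm, r4 hn]
  have h1 := h.var_up
  rw [e] at h1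
  refine h1.trans ?_
  calc 8 * G * (P ^ 4 * (n : ℝ) ^ (1 / 3 : ℝ)) ≤ 8 * P * (P ^ 4 * (n : ℝ) ^ (1 / 3 : ℝ)) := by
        gcongr
    _ = _ := by ring

lemma var_both (h : Bd β n (P * (n : ℝ) ^ (-(1 / 6) : ℝ)) P⁻¹ G)
    (k : Num β n P Z G c₂ y₂ δ c) :
    (n : ℝ) ^ (1 / 3 : ℝ) / Z ≤ Var[freeEnergy n β; disorder n] ∧
    Var[freeEnergy n β; disorder n] ≤ (n : ℝ) ^ (1 / 3 : ℝ) * Z := by
  have hn0 := h.n0
  have hP := k.P1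
  have hZ := k.Z0
  constructor
  · refine le_trans ?_ (var_lo h k)
    exact div_le_div_of_nonneg_left (by positivity) (by positivity) k.zB
  · refine (var_hi h k).trans ?_
    have h1 : 8 * P ^ 5 ≤ Z := by
      have := k.zD
      have : 0 < P ^ 5 := by positivity
      linarith [k.zD]
    calc 8 * P ^ 5 * (n : ℝ) ^ (1 / 3 : ℝ) ≤ Z * (n : ℝ) ^ (1 / 3 : ℝ) := by gcongr
      _ = _ := by ring

lemma ns_ge (hn : 1 ≤ n) {s : ℝ} (hs : (n : ℝ) ^ (-(5 / 6) : ℝ) ≤ s) :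
    1 ≤ n * s ^ (6 / 5 : ℝ) := by
  have hn0 : (0 : ℝ) < n := by exact_mod_cast hn
  have h1 : ((n : ℝ) ^ (-(5 / 6) : ℝ)) ^ (6 / 5 : ℝ) ≤ s ^ (6 / 5 : ℝ) :=
    Real.rpow_le_rpow (by positivity) hs (by norm_num)
  rw [← Real.rpow_mul hn0.le] at h1
  norm_num at h1
  rw [Real.rpow_neg_one] at h1
  calc (1 : ℝ) = n * (n : ℝ)⁻¹ := (mul_inv_cancel₀ hn0.ne').symm
    _ ≤ n * s ^ (6 / 5 : ℝ) := by gcongr

lemma quarter_exp {a b : ℝ} (h : 2 + a ≤ b) : Real.exp (-b) ≤ 1 / 4 * Real.exp (-a) := by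
  have h1 : Real.exp (-b) ≤ Real.exp (-2 + -a) := Real.exp_le_exp.2 (by linarith)
  rw [Real.exp_add] at h1
  refine h1.trans ?_
  have h2 : Real.exp (-2) ≤ 1 / 4 := by
    rw [Real.exp_neg, inv_le_comm₀ (Real.exp_pos _) (by norm_num)]
    have h3 : (2 : ℝ) ≤ Real.exp 1 := by
      have := Real.add_one_le_exp (1 : ℝ)
      linarith
    calc (1 / 4 : ℝ)⁻¹ = 2 ^ 2 := by norm_num
      _ ≤ Real.exp 1 ^ 2 := pow_le_pow_left₀ (by norm_num) h3 2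
      _ = Real.exp 2 := by rw [← Real.exp_nat_mul]; norm_num
  exact mul_le_mul_of_nonneg_right h2 (Real.exp_pos _).le

lemma right_lo (h : Bd β n (P * (n : ℝ) ^ (-(1 / 6) : ℝ)) P⁻¹ G) (h' : Bd β n y₂ c₂ G)
    (k : Num β n P Z G c₂ y₂ δ c) {s : ℝ} (h1 : (n : ℝ) ^ (-(5 / 6) : ℝ) * Z ≤ s) (h2 : s ≤ δ) :
    Real.exp (-(Z * (n * s ^ (6 / 5 : ℝ)))) ≤ (disorder n).real {g |
      ∫ h, freeEnergy n β h ∂(disorder n) + n * s ≤ freeEnergy n β g} := by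
  have hn := h.n1
  have hn0 := h.n0
  have hP := k.P1
  have hP0 : 0 < P := by linarith
  have hG := k.GP
  have hG0 := h.G0
  have hZ := k.Z0
  have hc0 := h'.l0
  have hr5 : 0 < (n : ℝ) ^ (-(5 / 6) : ℝ) := by positivity
  have hZ1 : 1 ≤ Z := by linarith [k.PZ]
  have hs1 : (n : ℝ) ^ (-(5 / 6) : ℝ) ≤ s := by
    refine le_trans ?_ h1
    exact le_mul_of_one_le_right hr5.le hZ1
  have hs0 : 0 < s := by linarith
  have hns := ns_ge hn hs1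
  obtain ⟨w, hw⟩ : ∃ w, w = n * s ^ (6 / 5 : ℝ) := ⟨_, rfl⟩
  rw [← hw] at hns ⊢
  rcases le_total (64 * s) P⁻¹ with hc | hc
  · have g1 : P⁻¹ * (P * (n : ℝ) ^ (-(1 / 6) : ℝ)) ^ 5 / 2 ≤ s := by
      rw [mul_pow, r5 hn]
      have e : P⁻¹ * (P ^ 5 * (n : ℝ) ^ (-(5 / 6) : ℝ)) / 2 =
          (P⁻¹ * P) * (P ^ 4 / 2 * (n : ℝ) ^ (-(5 / 6) : ℝ)) := by ring
      rw [e, inv_mul_cancel₀ hP0.ne', one_mul]
      refine le_trans ?_ h1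
      rw [mul_comm]
      refine mul_le_mul_of_nonneg_left ?_ hr5.le
      have h3 : P ^ 4 ≤ P ^ 6 := pow_le_pow_right₀ (by linarith) (by norm_num)
      have h4 : 0 < P ^ 6 := by positivity
      linarith [k.zE]
    refine le_trans (quarter_exp ?_) (h.right_low (two_le k hn) g1 hc)
    have e2 : (2 * s / P⁻¹) ^ (6 / 5 : ℝ) = (2 * P) ^ (6 / 5 : ℝ) * s ^ (6 / 5 : ℝ) := by
      rw [← Real.mul_rpow (by positivity) hs0.le]
      congr 1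
      field_simp
    have h5 : (2 * P) ^ (6 / 5 : ℝ) ≤ (2 * P) ^ (2 : ℝ) :=
      Real.rpow_le_rpow_of_exponent_le (by linarith) (by norm_num)
    rw [Real.rpow_two] at h5
    rw [e2]
    have h6 : 64 * G * (n * ((2 * P) ^ (6 / 5 : ℝ) * s ^ (6 / 5 : ℝ))) ≤
        64 * P * (n * ((2 * P) ^ 2 * s ^ (6 / 5 : ℝ))) := by gcongr
    have e3 : 64 * P * (n * ((2 * P) ^ 2 * s ^ (6 / 5 : ℝ))) = 256 * P ^ 3 * w := by
      rw [hw]
      ring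
    have h7 : 258 * P ^ 3 * w ≤ Z * w := mul_le_mul_of_nonneg_right k.zC (by linarith)
    have h8 : 1 ≤ P ^ 3 := one_le_pow₀ (by linarith)
    nlinarith
  · have g1 : c₂ * y₂ ^ 5 / 2 ≤ s := by
      have h3 : P⁻¹ * P = 1 := inv_mul_cancel₀ hP0.ne'
      have h4 : 32 * c₂ * y₂ ^ 5 ≤ P⁻¹ := by
        rw [← one_div, le_div_iff₀ hP0]
        exact k.nD
      linarith
    have g2 : 64 * s ≤ c₂ := by linarith [k.dA]
    refine le_trans (quarter_exp ?_) (h'.right_low k.nC g1 g2)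
    have e2 : (2 * s / c₂) ^ (6 / 5 : ℝ) = (2 / c₂) ^ (6 / 5 : ℝ) * s ^ (6 / 5 : ℝ) := by
      rw [← Real.mul_rpow (by positivity) hs0.le]
      congr 1
      ring
    rw [e2]
    have hK : 0 ≤ (2 / c₂) ^ (6 / 5 : ℝ) := by positivity
    have h6 : 64 * G * (n * ((2 / c₂) ^ (6 / 5 : ℝ) * s ^ (6 / 5 : ℝ))) ≤
        64 * P * (n * ((2 / c₂) ^ (6 / 5 : ℝ) * s ^ (6 / 5 : ℝ))) := by gcongr
    have e3 : 64 * P * (n * ((2 / c₂) ^ (6 / 5 : ℝ) * s ^ (6 / 5 : ℝ))) =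
        64 * (2 / c₂) ^ (6 / 5 : ℝ) * P * w := by
      rw [hw]
      ring
    have h7 := mul_le_mul_of_nonneg_right k.zF (by linarith : 0 ≤ w)
    have h8 : 2 ≤ 2 * P * w := by nlinarith
    nlinarith

lemma right_hi (h : Bd β n (P * (n : ℝ) ^ (-(1 / 6) : ℝ)) P⁻¹ G)
    (k : Num β n P Z G c₂ y₂ δ c) {s : ℝ} (h1 : (n : ℝ) ^ (-(5 / 6) : ℝ) * Z ≤ s) (h2 : s ≤ δ) :
    (disorder n).real {g | ∫ h, freeEnergy n β h ∂(disorder n) + n * s ≤ freeEnergy n β g} ≤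
      Real.exp (-(c * (n * s ^ (6 / 5 : ℝ)))) := by
  have hn := h.n1
  have hn0 := h.n0
  have hP := k.P1
  have hP0 : 0 < P := by linarith
  have hG := k.GP
  have hG0 := h.G0
  have hZ := k.Z0
  have hr5 : 0 < (n : ℝ) ^ (-(5 / 6) : ℝ) := by positivity
  have hs0 : 0 < s := lt_of_lt_of_le (by positivity) h1
  have g1 : 2 * G * (P * (n : ℝ) ^ (-(1 / 6) : ℝ)) ^ 5 ≤ s := by
    rw [mul_pow, r5 hn]
    refine le_trans ?_ h1
    calc 2 * G * (P ^ 5 * (n : ℝ) ^ (-(5 / 6) : ℝ)) ≤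
          2 * P * (P ^ 5 * (n : ℝ) ^ (-(5 / 6) : ℝ)) := by gcongr
      _ = (n : ℝ) ^ (-(5 / 6) : ℝ) * (2 * P ^ 6) := by ring
      _ ≤ _ := mul_le_mul_of_nonneg_left k.zE hr5.le
  refine (h.right_up g1 (h2.trans k.dB)).trans (Real.exp_le_exp.2 (neg_le_neg ?_))
  rw [Real.div_rpow hs0.le (by positivity)]
  have h3 : 0 < (2 * G) ^ (6 / 5 : ℝ) := by positivity
  have h4 : c ≤ G / (2 * G) ^ (6 / 5 : ℝ) := by
    rw [le_div_iff₀ h3]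
    exact k.cA
  calc c * (n * s ^ (6 / 5 : ℝ)) ≤ G / (2 * G) ^ (6 / 5 : ℝ) * (n * s ^ (6 / 5 : ℝ)) := by gcongr
    _ = _ := by ring

lemma sides_of (h : Bd β n (P * (n : ℝ) ^ (-(1 / 6) : ℝ)) P⁻¹ G)
    (k : Num β n P Z G c₂ y₂ δ c) :
    1 / 10 ^ 10 ≤ (disorder n).real {g | ∫ h, freeEnergy n β h ∂(disorder n) +
      (n : ℝ) ^ (1 / 6 : ℝ) / Z ≤ freeEnergy n β g} ∧
    1 / 10 ^ 10 ≤ (disorder n).real {g | freeEnergy n β g ≤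
      ∫ h, freeEnergy n β h ∂(disorder n) - (n : ℝ) ^ (1 / 6 : ℝ) / Z} := by
  have hn := h.n1
  have hn0 := h.n0
  have hP := k.P1
  have hP0 : 0 < P := by linarith
  have hZ := k.Z0
  have h1 : (n : ℝ) ^ (1 / 6 : ℝ) / (36 * P) ≤ H320.MomP.sd n β := sd_lo h k
  have h2 : (10440 : ℝ) ≤ (n : ℝ) ^ (1 / 6 : ℝ) / (36 * P) := by
    rw [le_div_iff₀ (by positivity)]
    have h3 := mul_le_mul_of_nonneg_left k.nA (by positivity : 0 ≤ (n : ℝ) ^ (1 / 6 : ℝ))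
    have e : (n : ℝ) ^ (1 / 6 : ℝ) * (375840 * (P * (n : ℝ) ^ (-(1 / 6) : ℝ))) =
        375840 * P * ((n : ℝ) ^ (1 / 6 : ℝ) * (n : ℝ) ^ (-(1 / 6) : ℝ)) := by ring
    rw [e, r1 hn] at h3
    linarith
  have h3 := H320.MomP.both n β (h2.trans h1)
  have h4 : (n : ℝ) ^ (1 / 6 : ℝ) / Z ≤ H320.MomP.sd n β / 167040 := by
    rw [le_div_iff₀ (by norm_num)]
    refine le_trans ?_ h1
    rw [div_mul_eq_mul_div, div_le_div_iff₀ hZ (by positivity)]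
    have h5 := mul_le_mul_of_nonneg_left k.zA (by positivity : 0 ≤ (n : ℝ) ^ (1 / 6 : ℝ))
    linarith
  have h5 := h3.1
  have h6 := h3.2
  constructor
  · refine h5.trans (measureReal_mono fun g hg => ?_)
    simp only [mem_setOf_eq, H320.MomP.mn] at hg ⊢
    linarith
  · refine h6.trans (measureReal_mono fun g hg => ?_)
    simp only [mem_setOf_eq, H320.MomP.mn] at hg ⊢
    linarith

lemma chaos_lo (h : Bd β n (P * (n : ℝ) ^ (-(1 / 6) : ℝ)) P⁻¹ G)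
    (k : Num β n P Z G c₂ y₂ δ c) : ∃ t : ℝ, 0 ≤ t ∧ t < 1 ∧
      (n : ℝ) ^ (1 / 3 : ℝ) / Z ≤ n * (1 - t) * crossOverlap n β t := by
  have hn := h.n1
  have hn0 := h.n0
  have hn1 : (1 : ℝ) ≤ n := by exact_mod_cast hn
  have hP := k.P1
  have hP0 : 0 < P := by linarith
  have hZ := k.Z0
  have hN : 0 < (n : ℝ) ^ (1 / 3 : ℝ) := by positivity
  refine prof_low hn (by positivity) (lt_of_lt_of_le ?_ (var_lo h k))
  have h1 : β ^ 2 / 2 * ((n : ℝ) ^ (1 / 3 : ℝ) / Z * Real.log n) ≤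
      (n : ℝ) ^ (1 / 3 : ℝ) / (5184 * P ^ 2) := by
    have e : β ^ 2 / 2 * ((n : ℝ) ^ (1 / 3 : ℝ) / Z * Real.log n) =
        (β ^ 2 * Real.log n * (n : ℝ) ^ (1 / 3 : ℝ)) / (2 * Z) := by ring
    rw [e, div_le_div_iff₀ (by positivity) (by positivity)]
    have h2 := mul_le_mul_of_nonneg_left k.zG hN.le
    linarith
  have h2 : β ^ 2 / 2 ≤ (n : ℝ) ^ (1 / 3 : ℝ) / (5184 * P ^ 2) := by
    rw [div_le_div_iff₀ (by norm_num) (by positivity)]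
    linarith [k.nB]
  have e : (n : ℝ) ^ (1 / 3 : ℝ) / (1296 * P ^ 2) =
      4 * ((n : ℝ) ^ (1 / 3 : ℝ) / (5184 * P ^ 2)) := by
    field_simp
    norm_num
  have h3 : 0 < (n : ℝ) ^ (1 / 3 : ℝ) / (5184 * P ^ 2) := by positivity
  rw [e]
  linarith

lemma chaos_hi (h : Bd β n (P * (n : ℝ) ^ (-(1 / 6) : ℝ)) P⁻¹ G)
    (k : Num β n P Z G c₂ y₂ δ c) {t : ℝ} (h0 : 0 ≤ t) (h1 : t < 1) :
    n * (1 - t) * crossOverlap n β t ≤ (n : ℝ) ^ (1 / 3 : ℝ) * Z := by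
  have hn := h.n1
  have hn0 := h.n0
  have hn1 : (1 : ℝ) ≤ n := by exact_mod_cast hn
  have hP := k.P1
  have hP0 : 0 < P := by linarith
  have hZ := k.Z0
  have hb := k.b1
  have hN : 1 ≤ (n : ℝ) ^ (1 / 3 : ℝ) := Real.one_le_rpow hn1 (by norm_num)
  have h2 := prof_up hn (var_hi h k) h0 h1
  have hb2 : 1 ≤ β ^ 2 := one_le_pow₀ hb
  obtain ⟨X, hX⟩ : ∃ X, X = n * (1 - t) * crossOverlap n β t := ⟨_, rfl⟩
  obtain ⟨N, hN'⟩ : ∃ N, N = (n : ℝ) ^ (1 / 3 : ℝ) := ⟨_, rfl⟩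
  rw [← hX, ← hN'] at h2
  rw [← hN'] at hN
  rw [← hX, ← hN']
  have hP5 : 1 ≤ P ^ 5 := one_le_pow₀ (by linarith)
  have h3 : X ≤ 16 * P ^ 5 * N + 1 := by
    by_contra hc
    push Not at hc
    have h4 : β ^ 2 / 2 * (16 * P ^ 5 * N + 1) < β ^ 2 / 2 * X :=
      mul_lt_mul_of_pos_left hc (by positivity)
    have h5 : 8 * P ^ 5 * N ≤ β ^ 2 * (8 * P ^ 5 * N) :=
      le_mul_of_one_le_left (by positivity) hb2
    linarith
  have h4 : 17 * P ^ 5 * N ≤ Z * N := mul_le_mul_of_nonneg_right k.zD (by linarith)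
  have h5 : 1 ≤ P ^ 5 * N := by nlinarith
  linarith

/-- **All conclusions at one `n`.** -/
theorem out_of (h : Bd β n (P * (n : ℝ) ^ (-(1 / 6) : ℝ)) P⁻¹ G) (h' : Bd β n y₂ c₂ G)
    (k : Num β n P Z G c₂ y₂ δ c) : Out β Z δ c G n := by
  have hn := h.n1
  have hn0 := h.n0
  have hP := k.P1
  have hP0 : 0 < P := by linarith
  have hZ := k.Z0
  have hPZ := k.PZ
  have hr : 0 < (n : ℝ) ^ (-(1 / 6) : ℝ) := by positivity
  refine ⟨var_both h k, fun x h1 h2 => ?_, fun s h1 h2 => ⟨right_lo h h' k h1 h2,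
    right_hi h k h1 h2⟩, fun u hu => ?_, fun y u hu => ?_, sides_of h k,
    ⟨chaos_lo h k, fun t h0 h1 => chaos_hi h k h0 h1⟩⟩
  · have h3 : P * (n : ℝ) ^ (-(1 / 6) : ℝ) ≤ x := by
      refine le_trans ?_ h1
      rw [mul_comm]
      exact mul_le_mul_of_nonneg_left hPZ hr.le
    have hx0 : 0 < x := lt_of_lt_of_le (by positivity) h3
    refine ⟨le_trans ?_ (h.lo x h3 h2), h.up x h3 h2⟩
    rw [div_eq_mul_inv, mul_comm]
    exact mul_le_mul_of_nonneg_right (inv_anti₀ hP0 hPZ) (by positivity)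
  · exact left_tail hn (by positivity) (var_both h k).2 hu
  · refine (h.small (two_le k hn) y hu).trans ?_
    have h1 : 46980 * P ≤ Z := by linarith [k.zA]
    calc 46980 * (1 + u) * (P * (n : ℝ) ^ (-(1 / 6) : ℝ)) =
          (1 + u) * ((n : ℝ) ^ (-(1 / 6) : ℝ) * (46980 * P)) := by ring
      _ ≤ _ := by gcongr

end one

end Vale.Agent.P146.H605S
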